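import Crest.Agent.KS.Defs

/-! Deterministic lazy strategies, their cost, lazification of a non-lazy algorithm, and the list
form of the Bayesian bound. -/

namespace Crest.Agent.KS
open Crest.LogicCS.KServer Finset

section general
variable {X : Type*} [MetricSpace X] {k : ℕ}

/-- cost of the deterministic lazy strategy `f` (server choice as a function of the request
prefix) with history `past` from the configuration `c` -/
noncomputable def dc (f : List X → Fin k) : List X → (Fin k → X) → List X → ℝ
  | _, _, [] => 0
  | past, c, r :: rest => dist (c (f (past ++ [r]))) r +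
      dc f (past ++ [r]) (Function.update c (f (past ++ [r])) r) rest

/-- final configuration of the deterministic lazy strategy -/
def dend (f : List X → Fin k) : List X → (Fin k → X) → List X → (Fin k → X)
  | _, c, [] => c
  | past, c, r :: rest => dend f (past ++ [r]) (Function.update c (f (past ++ [r])) r) rest

/-- final configuration of an offline path -/
def pend : (Fin k → X) → List (X × Fin k) → (Fin k → X)
  | c, [] => c
  | c, (r, i) :: rest => pend (Function.update c i r) rest

theorem dc_nonneg (f : List X → Fin k) (past : List X) (c : Fin k → X) (l : List X) :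
    0 ≤ dc f past c l := by
  induction l generalizing past c with
  | nil => simp [dc]
  | cons r rest ih => simp only [dc]; exact add_nonneg dist_nonneg (ih _ _)

theorem dc_append (f : List X → Fin k) (past : List X) (c : Fin k → X) (l₁ l₂ : List X) :
    dc f past c (l₁ ++ l₂) = dc f past c l₁ + dc f (past ++ l₁) (dend f past c l₁) l₂ := by
  induction l₁ generalizing past c with
  | nil => simp [dc, dend]
  | cons r rest ih =>
    simp only [List.cons_append, dc, dend, ih, List.append_assoc, List.nil_append]
    ring

omit [MetricSpace X] in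
theorem dend_append (f : List X → Fin k) (past : List X) (c : Fin k → X) (l₁ l₂ : List X) :
    dend f past c (l₁ ++ l₂) = dend f (past ++ l₁) (dend f past c l₁) l₂ := by
  induction l₁ generalizing past c with
  | nil => simp [dend]
  | cons r rest ih =>
    simp only [List.cons_append, dend, ih, List.append_assoc, List.nil_append]

theorem pathCost_nonneg (c : Fin k → X) (π : List (X × Fin k)) : 0 ≤ pathCost c π := by
  induction π generalizing c with
  | nil => simp [pathCost]
  | cons a rest ih =>
    obtain ⟨r, i⟩ := a
    simp only [pathCost]; exact add_nonneg dist_nonneg (ih _)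

theorem pathCost_append (c : Fin k → X) (π₁ π₂ : List (X × Fin k)) :
    pathCost c (π₁ ++ π₂) = pathCost c π₁ + pathCost (pend c π₁) π₂ := by
  induction π₁ generalizing c with
  | nil => simp [pathCost, pend]
  | cons a rest ih =>
    obtain ⟨r, i⟩ := a
    simp only [List.cons_append, pathCost, pend, ih]
    ring

omit [MetricSpace X] in
theorem pend_append (c : Fin k → X) (π₁ π₂ : List (X × Fin k)) :
    pend c (π₁ ++ π₂) = pend (pend c π₁) π₂ := by
  induction π₁ generalizing c with
  | nil => simp [pend]
  | cons a rest ih =>
    obtain ⟨r, i⟩ := a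
    simp only [List.cons_append, pend, ih]

/-- moving one server changes the labelled distance to a fixed configuration by at most the move -/
theorem sum_dist_update_le (c d : Fin k → X) (i : Fin k) (r : X) :
    ∑ a, dist (Function.update c i r a) (d a) + dist (c i) (d i) =
      ∑ a, dist (c a) (d a) + dist r (d i) := by
  rw [← Finset.add_sum_erase _ _ (mem_univ i), ← Finset.add_sum_erase _ _ (mem_univ i)]
  have : ∑ a ∈ univ.erase i, dist (Function.update c i r a) (d a) =
      ∑ a ∈ univ.erase i, dist (c a) (d a) := by
    refine Finset.sum_congr rfl fun a ha => ?_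
    rw [Function.update_of_ne (Finset.ne_of_mem_erase ha)]
  rw [this, Function.update_self]; ring

theorem sum_dist_dend_le (f : List X → Fin k) (past : List X) (c : Fin k → X) (l : List X) :
    ∑ a, dist (c a) (dend f past c l a) ≤ dc f past c l := by
  induction l generalizing past c with
  | nil => simp [dc, dend]
  | cons r rest ih =>
    simp only [dc, dend]
    have h1 := ih (past ++ [r]) (Function.update c (f (past ++ [r])) r)
    have h2 := sum_dist_update_le c
      (dend f (past ++ [r]) (Function.update c (f (past ++ [r])) r) rest) (f (past ++ [r])) r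
    have h3 := dist_triangle (c (f (past ++ [r]))) r
      (dend f (past ++ [r]) (Function.update c (f (past ++ [r])) r) rest (f (past ++ [r])))
    linarith

theorem sum_dist_pend_le (c : Fin k → X) (π : List (X × Fin k)) :
    ∑ a, dist (c a) (pend c π a) ≤ pathCost c π := by
  induction π generalizing c with
  | nil => simp [pathCost, pend]
  | cons a rest ih =>
    obtain ⟨r, i⟩ := a
    simp only [pathCost, pend]
    have h1 := ih (Function.update c i r)
    have h2 := sum_dist_update_le c (pend (Function.update c i r) rest) i r
    have h3 := dist_triangle (c i) r (pend (Function.update c i r) rest i)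
    linarith

/-- change of the start configuration of an offline path -/
theorem pathCost_le_add (c d : Fin k → X) (π : List (X × Fin k)) :
    pathCost c π ≤ pathCost d π + ∑ a, dist (c a) (d a) := by
  induction π generalizing c d with
  | nil => simp only [pathCost, zero_add]; exact Finset.sum_nonneg fun _ _ => dist_nonneg
  | cons a rest ih =>
    obtain ⟨r, i⟩ := a
    simp only [pathCost]
    have h1 := ih (Function.update c i r) (Function.update d i r)
    have h2 : ∑ a, dist (Function.update c i r a) (Function.update d i r a) + dist (c i) (d i) =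
        ∑ a, dist (c a) (d a) := by
      rw [← Finset.add_sum_erase _ _ (mem_univ i), ← Finset.add_sum_erase _ _ (mem_univ i)]
      have : ∑ a ∈ univ.erase i, dist (Function.update c i r a) (Function.update d i r a) =
          ∑ a ∈ univ.erase i, dist (c a) (d a) := by
        refine Finset.sum_congr rfl fun a ha => ?_
        rw [Function.update_of_ne (Finset.ne_of_mem_erase ha),
          Function.update_of_ne (Finset.ne_of_mem_erase ha)]
      rw [this, Function.update_self, Function.update_self, dist_self]; ring
    have h3 := dist_triangle (c i) (d i) r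
    linarith

/-- simulation of a strategy from another start configuration, with relabelled servers -/
theorem dc_simul (f f' : List X → Fin k) (τ : Equiv.Perm (Fin k)) (past past' : List X)
    (hf : ∀ l, f' (past' ++ l) = τ (f (past ++ l))) (c c' : Fin k → X) (l : List X) :
    dc f' past' c' l ≤ dc f past c l + ∑ a, dist (c a) (c' (τ a)) := by
  induction l generalizing past past' c c' with
  | nil => simp only [dc, zero_add]; exact Finset.sum_nonneg fun _ _ => dist_nonneg
  | cons r rest ih =>
    simp only [dc]
    have h1 := ih (past ++ [r]) (past' ++ [r])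
      (fun l => by rw [List.append_assoc, List.append_assoc]; exact hf _)
      (Function.update c (f (past ++ [r])) r) (Function.update c' (f' (past' ++ [r])) r)
    rw [hf [r]] at h1 ⊢
    set i := f (past ++ [r])
    have h2 : ∑ a, dist (Function.update c i r a) (Function.update c' (τ i) r (τ a)) +
        dist (c i) (c' (τ i)) = ∑ a, dist (c a) (c' (τ a)) := by
      rw [← Finset.add_sum_erase _ _ (mem_univ i), ← Finset.add_sum_erase _ _ (mem_univ i)]
      have : ∑ a ∈ univ.erase i, dist (Function.update c i r a) (Function.update c' (τ i) r (τ a)) =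
          ∑ a ∈ univ.erase i, dist (c a) (c' (τ a)) := by
        refine Finset.sum_congr rfl fun a ha => ?_
        rw [Function.update_of_ne (Finset.ne_of_mem_erase ha),
          Function.update_of_ne (fun h => Finset.ne_of_mem_erase ha (τ.injective h))]
      rw [this, Function.update_self, Function.update_self, dist_self]; ring
    have h3 := dist_triangle (c' (τ i)) (c i) r
    rw [dist_comm (c' (τ i)) (c i)] at h3
    linarith

/-- the lazy strategy induced by a non-lazy algorithm -/
noncomputable def lazyOf (i₀ : Fin k) (cfg : List X → Fin k → X) (l : List X) : Fin k :=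
  open Classical in
  if h : ∃ i, some (cfg l i) = l.getLast? then h.choose else i₀

omit [MetricSpace X] in
theorem lazyOf_spec (i₀ : Fin k) (cfg : List X → Fin k → X) (l : List X) (r : X)
    (h : ∃ i, cfg (l ++ [r]) i = r) : cfg (l ++ [r]) (lazyOf i₀ cfg (l ++ [r])) = r := by
  have h' : ∃ i, some (cfg (l ++ [r]) i) = (l ++ [r]).getLast? := by
    obtain ⟨i, hi⟩ := h
    exact ⟨i, by simp [hi]⟩
  have := h'.choose_spec
  unfold lazyOf
  rw [dif_pos h']
  simpa using this

theorem dc_lazy_le (i₀ : Fin k) (cfg : List X → Fin k → X) (σ : ℕ → X) (T : ℕ)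
    (hc : ∀ t < T, ∃ i, cfg (pre σ (t + 1)) i = σ t) (s : Fin k → X) :
    dc (lazyOf i₀ cfg) [] s (pre σ T) +
        ∑ a, dist (dend (lazyOf i₀ cfg) [] s (pre σ T) a) (cfg (pre σ T) a) ≤
      algCost cfg σ T + ∑ a, dist (s a) (cfg [] a) := by
  induction T with
  | zero => simp [dc, dend, algCost]
  | succ T ih =>
    have ih := ih fun t ht => hc t (by omega)
    have hT := hc T (by omega)
    rw [pre_succ] at hT
    have hs := lazyOf_spec i₀ cfg (pre σ T) (σ T) hT
    unfold algCost at ih ⊢
    rw [Finset.sum_range_succ, pre_succ, dc_append, dend_append]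
    simp only [dc, dend, List.nil_append, add_zero]
    set q := dend (lazyOf i₀ cfg) [] s (pre σ T)
    set i := lazyOf i₀ cfg (pre σ T ++ [σ T])
    have h2 := sum_dist_update_le q (cfg (pre σ T ++ [σ T])) i (σ T)
    rw [hs, dist_self] at h2
    have h3 : ∑ a, dist (q a) (cfg (pre σ T ++ [σ T]) a) ≤
        ∑ a, dist (q a) (cfg (pre σ T) a) +
          ∑ a, dist (cfg (pre σ T) a) (cfg (pre σ T ++ [σ T]) a) := by
      rw [← Finset.sum_add_distrib]
      exact Finset.sum_le_sum fun a _ => dist_triangle _ _ _
    linarith

/-- offline cost in sequence form equals `pathCost` -/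
theorem optCost_eq (s : Fin k → X) (σ : ℕ → X) (j : ℕ → Fin k) (T : ℕ) :
    optCost s σ j T = pathCost s ((List.range T).map fun t => (σ t, j t)) ∧
      optCfg s σ j T = pend s ((List.range T).map fun t => (σ t, j t)) := by
  induction T with
  | zero => simp [optCost, pathCost, optCfg, pend]
  | succ T ih =>
    obtain ⟨h1, h2⟩ := ih
    unfold optCost at h1 ⊢
    rw [List.range_succ, List.map_append, pathCost_append, pend_append, Finset.sum_range_succ, h1,
      ← h2]
    simp [pathCost, pend, optCfg]

theorem pathCost_replicate (c : Fin k → X) (i : Fin k) (n : ℕ) :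
    pathCost c (List.replicate n (c i, i)) = 0 := by
  induction n with
  | zero => simp [pathCost]
  | succ n ih => simp [List.replicate_succ, pathCost, ih]

end general

/-- list form of the Bayesian bound: lazy deterministic strategies from `s`, paths of any lengths -/
theorem bayes_list {k : ℕ} {ρ : ℝ} (hk : 0 < k) (hB : Bayes k ρ) (X : Type) [MetricSpace X]
    [Fintype X] (hX : Nonempty (Fin (k + 1) ↪ X)) (s : Fin k → X) (hs : Function.Injective s) :
    ∃ B : ℝ, ∀ (Ω : Type) [Fintype Ω] (p : Ω → ℝ), (∀ ω, 0 ≤ p ω) → ∑ ω, p ω = 1 →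
      ∀ π : Ω → List (X × Fin k), ∃ f : List X → Fin k,
        ∑ ω, p ω * dc f [] s ((π ω).map Prod.fst) ≤ ρ * ∑ ω, p ω * pathCost s (π ω) + B := by
  obtain ⟨B, hB⟩ := hB X hX s hs
  obtain ⟨D, hD⟩ : ∃ D : ℝ, ∀ x y : X, dist x y ≤ D := by
    obtain ⟨D, hD⟩ := (Set.finite_range fun q : X × X => dist q.1 q.2).bddAbove
    exact ⟨D, fun x y => hD ⟨(x, y), rfl⟩⟩
  refine ⟨B + k * D, fun Ω _ p hp hp1 π => ?_⟩
  set i₀ : Fin k := ⟨0, hk⟩
  obtain ⟨T, hT⟩ : ∃ T : ℕ, ∀ ω, (π ω).length ≤ T :=
    ⟨univ.sup fun ω => (π ω).length, fun ω => Finset.le_sup (f := fun ω => (π ω).length) (mem_univ ω)⟩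
  set π' : Ω → List (X × Fin k) := fun ω =>
    π ω ++ List.replicate (T - (π ω).length) (pend s (π ω) i₀, i₀) with hπ'
  have hlen : ∀ ω, (π' ω).length = T := fun ω => by
    have := hT ω
    simp only [hπ', List.length_append, List.length_replicate]; omega
  set σ : Ω → ℕ → X := fun ω t => ((π' ω).getD t (s i₀, i₀)).1 with hσ
  set j : Ω → ℕ → Fin k := fun ω t => ((π' ω).getD t (s i₀, i₀)).2 with hj
  have hrange : ∀ ω, ((List.range T).map fun t => (σ ω t, j ω t)) = π' ω := fun ω => by
    apply List.ext_getElem
    · simp [hlen]
    · intro n h1 h2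
      simp only [List.getElem_map, List.getElem_range, hσ, hj, Prod.mk.eta]
      rw [List.getD_eq_getElem _ _ h2]
  have hpre : ∀ ω, pre (σ ω) T = (π' ω).map Prod.fst := fun ω => by
    rw [← hrange ω]; simp [pre, Function.comp_def]
  obtain ⟨cfg, hcov, hle⟩ := hB T Ω p hp hp1 σ j
  refine ⟨lazyOf i₀ cfg, ?_⟩
  have h1 : ∀ ω, optCost s (σ ω) (j ω) T = pathCost s (π ω) := fun ω => by
    rw [(optCost_eq s (σ ω) (j ω) T).1, hrange, hπ']
    simp only
    rw [pathCost_append, pathCost_replicate, add_zero]
  simp only [h1] at hle
  have h2 : ∀ ω, p ω * dc (lazyOf i₀ cfg) [] s ((π ω).map Prod.fst) ≤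
      p ω * (algCost cfg (σ ω) T + k * D) := fun ω => by
    rcases (hp ω).eq_or_lt with h0 | hpos
    · rw [← h0]; simp
    · refine mul_le_mul_of_nonneg_left ?_ (hp ω)
      have h3 := dc_lazy_le i₀ cfg (σ ω) T (hcov ω hpos) s
      have h4 : 0 ≤ ∑ a, dist (dend (lazyOf i₀ cfg) [] s (pre (σ ω) T) a) (cfg (pre (σ ω) T) a) :=
        Finset.sum_nonneg fun _ _ => dist_nonneg
      have h5 : ∑ a, dist (s a) (cfg [] a) ≤ k * D := by
        calc ∑ a, dist (s a) (cfg [] a) ≤ ∑ _a : Fin k, D := Finset.sum_le_sum fun a _ => hD _ _
          _ = k * D := by simp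
      have h6 : dc (lazyOf i₀ cfg) [] s ((π ω).map Prod.fst) ≤
          dc (lazyOf i₀ cfg) [] s (pre (σ ω) T) := by
        rw [hpre, hπ']
        simp only [List.map_append]
        rw [dc_append]
        exact le_add_of_nonneg_right (dc_nonneg _ _ _ _)
      linarith
  calc ∑ ω, p ω * dc (lazyOf i₀ cfg) [] s ((π ω).map Prod.fst)
      ≤ ∑ ω, p ω * (algCost cfg (σ ω) T + k * D) := Finset.sum_le_sum fun ω _ => h2 ω
    _ = ∑ ω, p ω * algCost cfg (σ ω) T + k * D := by
        simp only [mul_add, Finset.sum_add_distrib, ← Finset.sum_mul, hp1, one_mul]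
    _ ≤ _ := by linarith

end Crest.Agent.KS
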