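import Crest.Agent.KS.DefsI
import Crest.Agent.KS.Det

/-! **ADP**: servers living in `X → ℝ` are replaced by physical servers. -/

namespace Crest.Agent.KS
open Finset

theorem dist_le_kur {X : Type} [MetricSpace X] [Fintype X] (x y : X) :
    dist x y ≤ dist (kur x) (kur y) := by
  have := dist_le_pi_dist (kur x) (kur y) y
  simp only [kur, dist_self, Real.dist_eq, sub_zero, abs_dist] at this
  exact this

theorem pre_eq_of_succ {X : Type*} {σ σ' : ℕ → X} {t : ℕ} (h : pre σ (t + 1) = pre σ' (t + 1)) :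
    pre σ t = pre σ' t := by
  rw [pre_succ, pre_succ] at h
  exact List.append_inj_left' h rfl

/-- the physical servers follow the virtual ones lazily -/
theorem phys_le {X : Type} [MetricSpace X] [Fintype X] {k : ℕ} (D : ℝ)
    (hD : ∀ x y : X, dist x y ≤ D) (f : List X → Fin k) (σ : ℕ → X) (c : ℕ → Fin k → X → ℝ)
    (hc : ∀ t, c (t + 1) (f (pre σ (t + 1))) = kur (σ t)) (s : Fin k → X) (T : ℕ) :
    algCost (dend f [] s) σ T + ∑ a, min D (dist (kur (dend f [] s (pre σ T) a)) (c T a)) ≤
      ∑ t ∈ range T, ∑ i, dist (c t i) (c (t + 1) i) + k * D := by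
  induction T with
  | zero =>
    simp only [algCost, range_zero, sum_empty, zero_add]
    calc _ ≤ ∑ _a : Fin k, D := Finset.sum_le_sum fun a _ => min_le_left _ _
      _ = k * D := by simp
  | succ T ih =>
    unfold algCost at ih ⊢
    rw [Finset.sum_range_succ, Finset.sum_range_succ]
    have hT := hc T
    have hd : dend f [] s (pre σ (T + 1)) =
        Function.update (dend f [] s (pre σ T)) (f (pre σ (T + 1))) (σ T) := by
      rw [pre_succ, dend_append]; simp [dend]
    rw [hd]
    set q := dend f [] s (pre σ T)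
    set i := f (pre σ (T + 1))
    have key : ∀ a, dist (q a) (Function.update q i (σ T) a) +
        min D (dist (kur (Function.update q i (σ T) a)) (c (T + 1) a)) ≤
        min D (dist (kur (q a)) (c T a)) + dist (c T a) (c (T + 1) a) := fun a => by
      have h0 : 0 ≤ dist (c T a) (c (T + 1) a) := dist_nonneg
      have h1 := dist_triangle (kur (q a)) (c T a) (c (T + 1) a)
      by_cases ha : a = i
      · subst ha
        rw [Function.update_self, hT, dist_self]
        have h2 := dist_le_kur (q i) (σ T)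
        have h3 := hD (q i) (σ T)
        rw [hT] at h0 h1
        have h4 : min D 0 ≤ 0 := min_le_right _ _
        rcases le_total D (dist (kur (q i)) (c T i)) with h | h
        · rw [min_eq_left h]; linarith
        · rw [min_eq_right h]; linarith
      · rw [Function.update_of_ne ha, dist_self, zero_add]
        rcases le_total D (dist (kur (q a)) (c T a)) with h | h
        · rw [min_eq_left h]; linarith [min_le_left D (dist (kur (q a)) (c (T + 1) a))]
        · rw [min_eq_right h]; linarith [min_le_right D (dist (kur (q a)) (c (T + 1) a))]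
    have := Finset.sum_le_sum fun a (_ : a ∈ univ) => key a
    rw [Finset.sum_add_distrib, Finset.sum_add_distrib] at this
    linarith

theorem ADP_proof : AdpStmt := by
  classical
  intro k ρ hV X _ _ hX s _
  obtain ⟨B, hB⟩ := hV X hX s
  obtain ⟨D, hD⟩ : ∃ D : ℝ, ∀ x y : X, dist x y ≤ D := by
    obtain ⟨D, hD⟩ := (Set.finite_range fun q : X × X => dist q.1 q.2).bddAbove
    exact ⟨D, fun x y => hD ⟨(x, y), rfl⟩⟩
  have hD0 : 0 ≤ D := by
    obtain ⟨g⟩ := hX
    exact dist_nonneg.trans (hD (g 0) (g 0))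
  refine ⟨B + k * D, fun T Ω _ p hp hp1 σ j => ?_⟩
  have hsum : ∀ F : Ω → ℝ, ∑ ω : {ω // 0 < p ω}, p ω.1 * F ω.1 = ∑ ω, p ω * F ω := fun F => by
    rw [← Finset.sum_subtype (univ.filter fun ω => 0 < p ω) (by simp) fun ω => p ω * F ω,
      Finset.sum_filter]
    refine Finset.sum_congr rfl fun ω _ => ?_
    split_ifs with h
    · rfl
    · rw [le_antisymm (not_lt.1 h) (hp ω), zero_mul]
  let P : Bay {ω // 0 < p ω} :=
    { w := fun ω => p ω.1
      pos := fun ω => ω.2
      tot := by simpa [hp1] using hsum fun _ => 1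
      eqv := fun t a b => pre (σ a.1) t = pre (σ b.1) t
      refl := fun _ _ => rfl
      symm := fun _ _ _ h => h.symm
      trans := fun _ _ _ _ h h' => h.trans h'
      mono := fun _ _ _ h => pre_eq_of_succ h }
  obtain ⟨c, hAd, hcov, hle⟩ := hB T {ω // 0 < p ω} P (fun ω => σ ω.1) (fun ω => j ω.1)
    fun _ _ _ => Iff.rfl
  obtain ⟨ω₀, hω₀⟩ : ∃ ω, 0 < p ω := by
    by_contra h
    push Not at h
    have : ∑ ω, p ω ≤ 0 := Finset.sum_nonpos fun ω _ => h ω
    linarith
  obtain ⟨i₀, -⟩ := hcov 0 ⟨ω₀, hω₀⟩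
  let f : List X → Fin k := fun l =>
    if h : ∃ i, ∃ (t : ℕ) (ω : {ω // 0 < p ω}), l = pre (σ ω.1) (t + 1) ∧
      c (t + 1) ω i = kur (σ ω.1 t) then h.choose else i₀
  have hf : ∀ (ω : {ω // 0 < p ω}) (t : ℕ),
      c (t + 1) ω (f (pre (σ ω.1) (t + 1))) = kur (σ ω.1 t) := fun ω t => by
    have h : ∃ i, ∃ (t' : ℕ) (ω' : {ω // 0 < p ω}), pre (σ ω.1) (t + 1) = pre (σ ω'.1) (t' + 1) ∧
        c (t' + 1) ω' i = kur (σ ω'.1 t') := by
      obtain ⟨i, hi⟩ := hcov t ω
      exact ⟨i, t, ω, rfl, hi⟩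
    obtain ⟨t', ω', h1, h2⟩ := h.choose_spec
    have htt : t' = t := by
      have := congrArg List.length h1
      simp only [length_pre] at this
      omega
    subst htt
    have h3 : f (pre (σ ω.1) (t' + 1)) = h.choose := dif_pos h
    have h4 : σ ω.1 t' = σ ω'.1 t' := by
      have h5 := h1
      rw [pre_succ, pre_succ] at h5
      simpa using List.append_inj_right' h5 rfl
    rw [h3, hAd (t' + 1) ω ω' h1, h2, h4]
  refine ⟨dend f [] s, fun ω _ t _ => ⟨f (pre (σ ω) (t + 1)), ?_⟩, ?_⟩
  · rw [pre_succ, dend_append]; simp [dend]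
  · rw [← hsum, ← hsum]
    have h1 : ∀ ω : {ω // 0 < p ω}, p ω.1 * algCost (dend f [] s) (σ ω.1) T ≤
        p ω.1 * (∑ t ∈ range T, ∑ i, dist (c t ω i) (c (t + 1) ω i) + k * D) := fun ω => by
      refine mul_le_mul_of_nonneg_left ?_ (hp _)
      have h2 := phys_le D hD f (σ ω.1) (fun t => c t ω) (hf ω) s T
      have h3 : 0 ≤ ∑ a, min D (dist (kur (dend f [] s (pre (σ ω.1) T) a)) (c T ω a)) :=
        Finset.sum_nonneg fun a _ => le_min hD0 dist_nonneg
      linarith
    have h2 := Finset.sum_le_sum fun ω (_ : ω ∈ univ) => h1 ω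
    have h3 : ∑ ω : {ω // 0 < p ω}, p ω.1 = 1 := P.tot
    simp only [mul_add, Finset.sum_add_distrib, ← Finset.sum_mul, h3, one_mul] at h2
    simp only [Bay.Ex, P] at hle
    linarith

end Crest.Agent.KS
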