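import Crest.Agent.KS.DefsI

/-! Row 314: calculus of `Ex` and `cond`. -/

set_option autoImplicit false

namespace Crest.Agent.KS

open Finset
open scoped Classical

namespace Bay

variable {Ω : Type} [Fintype Ω] (P : Bay Ω)

/-- weight of the class of `a` -/
noncomputable def den (t : ℕ) (a : Ω) : ℝ := ∑ b, if P.eqv t a b then P.w b else 0

theorem den_pos (t : ℕ) (a : Ω) : 0 < P.den t a := by
  unfold den
  have h : (if P.eqv t a a then P.w a else 0) ≤ ∑ b, if P.eqv t a b then P.w b else 0 :=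
    single_le_sum (f := fun b => if P.eqv t a b then P.w b else 0)
      (fun b _ => by split_ifs; exacts [(P.pos b).le, le_rfl]) (mem_univ a)
  rw [if_pos (P.refl t a)] at h
  exact lt_of_lt_of_le (P.pos a) h

theorem eqv_iff {t : ℕ} {a b : Ω} (h : P.eqv t a b) (c : Ω) : P.eqv t a c ↔ P.eqv t b c :=
  ⟨fun h' => P.trans t _ _ _ (P.symm t _ _ h) h', fun h' => P.trans t _ _ _ h h'⟩

theorem den_eq {t : ℕ} {a b : Ω} (h : P.eqv t a b) : P.den t a = P.den t b := by
  unfold den
  exact sum_congr rfl fun c _ => by simp only [P.eqv_iff h c]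

theorem cond_eq (t : ℕ) (f : Ω → ℝ) (a : Ω) :
    P.cond t f a = (∑ b, if P.eqv t a b then P.w b * f b else 0) / P.den t a := rfl

theorem ex_add (f g : Ω → ℝ) : P.Ex (fun a => f a + g a) = P.Ex f + P.Ex g := by
  simp only [Ex, mul_add, sum_add_distrib]

theorem ex_mul (c : ℝ) (f : Ω → ℝ) : P.Ex (fun a => c * f a) = c * P.Ex f := by
  simp only [Ex, mul_sum]
  exact sum_congr rfl fun a _ => by ring

theorem ex_const (c : ℝ) : P.Ex (fun _ => c) = c := by
  simp only [Ex, ← sum_mul, P.tot, one_mul]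

theorem ex_mono {f g : Ω → ℝ} (h : ∀ a, f a ≤ g a) : P.Ex f ≤ P.Ex g :=
  sum_le_sum fun a _ => mul_le_mul_of_nonneg_left (h a) (P.pos a).le

theorem ex_sum {ι : Type} (S : Finset ι) (f : ι → Ω → ℝ) :
    P.Ex (fun a => ∑ i ∈ S, f i a) = ∑ i ∈ S, P.Ex (f i) := by
  simp only [Ex, mul_sum]
  exact sum_comm

theorem cond_add (t : ℕ) (f g : Ω → ℝ) (a : Ω) :
    P.cond t (fun b => f b + g b) a = P.cond t f a + P.cond t g a := by
  simp only [cond_eq, ← add_div, ← sum_add_distrib]
  congr 1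
  exact sum_congr rfl fun b _ => by split_ifs <;> ring

theorem cond_mul (t : ℕ) (c : ℝ) (f : Ω → ℝ) (a : Ω) :
    P.cond t (fun b => c * f b) a = c * P.cond t f a := by
  simp only [cond_eq, ← mul_div_assoc, mul_sum]
  congr 1
  exact sum_congr rfl fun b _ => by split_ifs <;> ring

theorem cond_const (t : ℕ) (c : ℝ) (a : Ω) : P.cond t (fun _ => c) a = c := by
  rw [cond_eq, div_eq_iff (P.den_pos t a).ne', den, mul_sum]
  exact sum_congr rfl fun b _ => by split_ifs <;> ring

theorem cond_mono (t : ℕ) {f g : Ω → ℝ} (a : Ω) (h : ∀ b, P.eqv t a b → f b ≤ g b) :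
    P.cond t f a ≤ P.cond t g a := by
  simp only [cond_eq]
  refine div_le_div_of_nonneg_right (sum_le_sum fun b _ => ?_) (P.den_pos t a).le
  split_ifs with hb
  · exact mul_le_mul_of_nonneg_left (h b hb) (P.pos b).le
  · exact le_rfl

theorem cond_pos (t : ℕ) {f : Ω → ℝ} (a : Ω) (h : 0 < P.cond t f a) :
    ∃ b, P.eqv t a b ∧ 0 < f b := by
  by_contra hn
  push Not at hn
  have := P.cond_mono t (f := f) (g := fun _ => 0) a hn
  rw [cond_const] at this
  linarith

theorem cond_sum {ι : Type} (S : Finset ι) (f : ι → Ω → ℝ) (t : ℕ) (a : Ω) :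
    P.cond t (fun b => ∑ i ∈ S, f i b) a = ∑ i ∈ S, P.cond t (f i) a := by
  induction S using Finset.induction_on with
  | empty => simpa using P.cond_const t 0 a
  | insert i S hi ih =>
    simp only [sum_insert hi]
    rw [cond_add, ih]

theorem ad_cond (t : ℕ) (f : Ω → ℝ) : P.Ad t (P.cond t f) := by
  intro a b h
  rw [cond_eq, cond_eq, P.den_eq h]
  congr 1
  exact sum_congr rfl fun c _ => by simp only [P.eqv_iff h c]

theorem ex_cond (t : ℕ) (f c : Ω → ℝ) (hc : P.Ad t c) :
    P.Ex (fun a => c a * P.cond t f a) = P.Ex (fun a => c a * f a) := by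
  have h1 : ∀ a, P.w a * (c a * P.cond t f a) =
      ∑ b, if P.eqv t b a then P.w a * (P.w b * (c b * f b) / P.den t b) else 0 := by
    intro a
    rw [cond_eq, sum_div, mul_sum, mul_sum]
    refine sum_congr rfl fun b _ => ?_
    by_cases h : P.eqv t a b
    · rw [if_pos h, if_pos (P.symm t _ _ h), hc a b h, P.den_eq h]
      ring
    · rw [if_neg h, if_neg (fun h' => h (P.symm t _ _ h'))]
      simp
  unfold Ex
  rw [sum_congr rfl fun a _ => h1 a, sum_comm]
  refine sum_congr rfl fun b _ => ?_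
  have h2 : ∑ a, (if P.eqv t b a then P.w a * (P.w b * (c b * f b) / P.den t b) else 0) =
      P.den t b * (P.w b * (c b * f b) / P.den t b) := by
    conv_rhs => rw [den, sum_mul]
    exact sum_congr rfl fun a _ => by split_ifs <;> simp [den]
  rw [h2]
  field_simp [(P.den_pos t b).ne']

theorem eqv_of_le {t u : ℕ} (h : t ≤ u) {a b : Ω} (hab : P.eqv u a b) : P.eqv t a b := by
  induction u, h using Nat.le_induction with
  | base => exact hab
  | succ u _ ih => exact ih (P.mono u a b hab)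

theorem ad_mono {α : Type} {t u : ℕ} {f : Ω → α} (h : t ≤ u) (hf : P.Ad t f) : P.Ad u f :=
  fun a b hab => hf a b (P.eqv_of_le h hab)

end Bay

theorem BAY_proof : BayStmt := by
  intro Ω _ P
  exact ⟨fun f g c => ⟨P.ex_add f g, P.ex_mul c f, P.ex_const c, P.ex_mono⟩,
    fun _ S f => P.ex_sum S f,
    fun t f g c a => ⟨P.cond_add t f g a, P.cond_mul t c f a, P.cond_const t c a, P.cond_mono t a,
      fun _ h => P.cond_pos t a h⟩,
    fun _ S f t a => P.cond_sum S f t a, P.ad_cond, P.ex_cond,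
    fun _ _ _ _ h hf => P.ad_mono h hf⟩

end Crest.Agent.KS
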