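import Mathlib
import Crest.Prelude.Def_KServer

/-! Row 314 (k-server): the Bayesian form of the competitive bound, the interface of the reduction
`Crest.Agent.KS.red` (file `KS/Red.lean`). -/

namespace Crest.Agent.KS

/-- the first `t` requests of the sequence `σ`, as a list -/
def pre {X : Type*} (σ : ℕ → X) (t : ℕ) : List X := (List.range t).map σ

@[simp] theorem pre_zero {X : Type*} (σ : ℕ → X) : pre σ 0 = [] := by simp [pre]

theorem pre_succ {X : Type*} (σ : ℕ → X) (t : ℕ) : pre σ (t + 1) = pre σ t ++ [σ t] := by
  simp [pre, List.range_succ]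

@[simp] theorem length_pre {X : Type*} (σ : ℕ → X) (t : ℕ) : (pre σ t).length = t := by simp [pre]

/-- configuration of the (lazy, labelled) offline server path after `t` requests: request `σ t` is
served by moving server `j t` onto it -/
def optCfg {X : Type*} {k : ℕ} (s : Fin k → X) (σ : ℕ → X) (j : ℕ → Fin k) : ℕ → Fin k → X
  | 0 => s
  | t + 1 => Function.update (optCfg s σ j t) (j t) (σ t)

/-- cost of the offline path on the first `T` requests -/
noncomputable def optCost {X : Type*} [MetricSpace X] {k : ℕ} (s : Fin k → X) (σ : ℕ → X)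
    (j : ℕ → Fin k) (T : ℕ) : ℝ :=
  ∑ t ∈ Finset.range T, dist (optCfg s σ j t (j t)) (σ t)

/-- movement cost on the first `T` requests of a deterministic (not necessarily lazy) online
algorithm `cfg` (its labelled configuration as a function of the request prefix) -/
noncomputable def algCost {X : Type*} [MetricSpace X] {k : ℕ} (cfg : List X → Fin k → X)
    (σ : ℕ → X) (T : ℕ) : ℝ :=
  ∑ t ∈ Finset.range T, ∑ i, dist (cfg (pre σ t) i) (cfg (pre σ (t + 1)) i)

/-- Bayesian competitive bound with ratio `ρ`: on every finite metric space, against every finite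
prior on (request sequence, offline path), some deterministic online algorithm (any start
configuration, not necessarily lazy; it has to cover the requests only on the support of the prior)
has expected cost at most `ρ * E[offline cost] + B`, where `B` depends on the space and `s` only. -/
def Bayes (k : ℕ) (ρ : ℝ) : Prop :=
  ∀ (X : Type) [MetricSpace X] [Fintype X], Nonempty (Fin (k + 1) ↪ X) → ∀ s : Fin k → X,
    Function.Injective s → ∃ B : ℝ, ∀ (T : ℕ) (Ω : Type) [Fintype Ω] (p : Ω → ℝ), (∀ ω, 0 ≤ p ω) → ∑ ω, p ω = 1 →
      ∀ (σ : Ω → ℕ → X) (j : Ω → ℕ → Fin k),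
        ∃ cfg : List X → Fin k → X,
          (∀ ω, 0 < p ω → ∀ t < T, ∃ i, cfg (pre (σ ω) (t + 1)) i = σ ω t) ∧
          ∑ ω, p ω * algCost cfg (σ ω) T ≤ ρ * ∑ ω, p ω * optCost s (σ ω) (j ω) T + B

end Crest.Agent.KS
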