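import Crest.Agent.KS.Defs

/-!
Row 314 (k-server): interfaces between the parts.

* `EStmt` (helper11): dynamic embedding into a hierarchy of labels.
* `HStmt` (helper25): Bayesian `O(log k)` fractional algorithm on a static tree.
* `BayesV`, `AdpStmt` (helper21): servers living in `X → ℝ`.
-/

set_option autoImplicit false

namespace Crest.Agent.KS

open Finset
open scoped Classical

/-- a finite probability space with positive weights and a filtration given by equivalence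
relations -/
structure Bay (Ω : Type) [Fintype Ω] where
  w : Ω → ℝ
  pos : ∀ ω, 0 < w ω
  tot : ∑ ω, w ω = 1
  eqv : ℕ → Ω → Ω → Prop
  refl : ∀ t a, eqv t a a
  symm : ∀ t a b, eqv t a b → eqv t b a
  trans : ∀ t a b c, eqv t a b → eqv t b c → eqv t a c
  mono : ∀ t a b, eqv (t + 1) a b → eqv t a b

namespace Bay

variable {Ω : Type} [Fintype Ω] (P : Bay Ω)

/-- expectation -/
noncomputable def Ex (f : Ω → ℝ) : ℝ := ∑ ω, P.w ω * f ω

/-- conditional expectation given the information at time `t` -/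
noncomputable def cond (t : ℕ) (f : Ω → ℝ) (a : Ω) : ℝ :=
  (∑ b, if P.eqv t a b then P.w b * f b else 0) / ∑ b, if P.eqv t a b then P.w b else 0

/-- `f` is known at time `t` -/
def Ad {α : Type} (t : ℕ) (f : Ω → α) : Prop := ∀ a b, P.eqv t a b → f a = f b

end Bay

/-- **BAY**. Calculus of `Ex` and `cond` (the denominator is positive; double counting over the
pairs of equivalent worlds). -/
def BayStmt : Prop :=
  ∀ (Ω : Type) [Fintype Ω] (P : Bay Ω),
    (∀ (f g : Ω → ℝ) (c : ℝ), P.Ex (fun a => f a + g a) = P.Ex f + P.Ex g ∧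
      P.Ex (fun a => c * f a) = c * P.Ex f ∧ P.Ex (fun _ => c) = c ∧
      ((∀ a, f a ≤ g a) → P.Ex f ≤ P.Ex g)) ∧
    (∀ (ι : Type) (S : Finset ι) (f : ι → Ω → ℝ),
      P.Ex (fun a => ∑ i ∈ S, f i a) = ∑ i ∈ S, P.Ex (f i)) ∧
    (∀ (t : ℕ) (f g : Ω → ℝ) (c : ℝ) (a : Ω),
      P.cond t (fun b => f b + g b) a = P.cond t f a + P.cond t g a ∧
      P.cond t (fun b => c * f b) a = c * P.cond t f a ∧ P.cond t (fun _ => c) a = c ∧
      ((∀ b, P.eqv t a b → f b ≤ g b) → P.cond t f a ≤ P.cond t g a) ∧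
      ((∀ b, 0 ≤ f b) → 0 < P.cond t f a → ∃ b, P.eqv t a b ∧ 0 < f b)) ∧
    (∀ (ι : Type) (S : Finset ι) (f : ι → Ω → ℝ) (t : ℕ) (a : Ω),
      P.cond t (fun b => ∑ i ∈ S, f i b) a = ∑ i ∈ S, P.cond t (f i) a) ∧
    (∀ (t : ℕ) (f : Ω → ℝ), P.Ad t (P.cond t f)) ∧
    (∀ (t : ℕ) (f c : Ω → ℝ), P.Ad t c →
      P.Ex (fun a => c a * P.cond t f a) = P.Ex (fun a => c a * f a)) ∧
    ∀ (α : Type) (t u : ℕ) (f : Ω → α), t ≤ u → P.Ad t f → P.Ad u f

/-- a rooted tree -/
structure Tr (V : Type) where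
  root : V
  par : V → V
  dep : V → ℕ
  par_root : par root = root
  dep_root : dep root = 0
  dep_par : ∀ v, v ≠ root → dep v = dep (par v) + 1

namespace Tr

variable {V : Type} [Fintype V] (T : Tr V)

/-- children -/
noncomputable def ch (u : V) : Finset V := univ.filter (fun v => v ≠ T.root ∧ T.par v = u)

/-- the nodes other than the root -/
noncomputable def nr : Finset V := univ.filter (fun v => v ≠ T.root)

/-- superadditive functions -/
def SupA (Y : V → ℝ) : Prop := ∀ u, ∑ v ∈ T.ch u, Y v ≤ Y u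

/-- geometric weights: `wt v` is the length of the edge above `v` -/
def Wt (τ : ℝ) (wt : V → ℝ) : Prop := (∀ v, 0 < wt v) ∧ ∀ v, v ≠ T.root → τ * wt v = wt (T.par v)

/-- movement cost between two mass distributions -/
noncomputable def mv (wt : V → ℝ) (y y' : V → ℝ) : ℝ := ∑ v ∈ T.nr, wt v * |y' v - y v|

end Tr

/-- **H**. The fractional algorithm on a static tree. `N t ω v` is the number of servers of the
(virtual) offline path below `v`; `z t ω v` is the mass of the algorithm below `v` (the difference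
with the children is parked at `v`). -/
def HStmt : Prop :=
  ∃ C : ℝ, 0 ≤ C ∧ ∀ k : ℕ, 2 ≤ k → ∀ (V : Type) [Fintype V] (T : Tr V) (τ : ℝ) (wt : V → ℝ),
    16 ≤ τ → T.Wt τ wt → ∀ (Ω : Type) [Fintype Ω] (P : Bay Ω) (N : ℕ → Ω → V → ℕ),
      (∀ t ω, N t ω T.root = k) → (∀ t ω, T.SupA (fun v => (N t ω v : ℝ))) →
      ∃ z : ℕ → Ω → V → ℝ,
        (∀ t, P.Ad t (z t)) ∧ (∀ t ω, z t ω T.root = k) ∧ (∀ t ω, T.SupA (z t ω)) ∧
        (∀ t ω v, 0 ≤ z t ω v ∧ z t ω v ≤ 2 * P.cond t (fun b => (N t b v : ℝ)) ω) ∧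
        (∀ t ω v, (∀ b, P.eqv t ω b → 1 ≤ N t b v) → 1 ≤ z t ω v) ∧
        ∀ n : ℕ, P.Ex (fun ω => ∑ t ∈ range n, T.mv wt (z t ω) (z (t + 1) ω)) ≤
          C * Real.log (k + 1) *
            (P.Ex (fun ω => ∑ t ∈ range n,
              T.mv wt (fun v => (N t ω v : ℝ)) (fun v => (N (t + 1) ω v : ℝ))) + k * wt T.root)

/-- the filtration of the request prefixes -/
def Pref {X Ω : Type} [Fintype Ω] (P : Bay Ω) (σ : Ω → ℕ → X) : Prop :=
  ∀ t a b, P.eqv t a b ↔ pre (σ a) t = pre (σ b) t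

/-- the distance function of a point -/
noncomputable def kur {X : Type} [MetricSpace X] (x : X) : X → ℝ := fun y => dist x y

/-- **E**. The dynamic embedding. Scale `l < J` has length `lam * τ ^ l`; `lab t ω l x` is the label
of the cell of `x` after `t` requests, `anc t ω l a` the anchor of the label `a` (a function on `X`,
sup metric). `g t ω x` bounds the displacement, between the times `t` and `t + 1`, of the anchors of
the new labels of `x` that were already in use. -/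
def EStmt : Prop :=
  ∃ C τ : ℝ, 0 ≤ C ∧ 16 ≤ τ ∧ ∀ k : ℕ, 2 ≤ k → ∀ (X : Type) [MetricSpace X] [Fintype X]
    (lam : ℝ) (J : ℕ), 0 < lam → ∃ B : ℝ,
    ∀ (s : Fin k → X) (n : ℕ) (Ω : Type) [Fintype Ω] (P : Bay Ω) (σ : Ω → ℕ → X)
      (j : Ω → ℕ → Fin k), Pref P σ →
      ∃ (Lab : Type) (_ : Fintype Lab) (lab : ℕ → Ω → ℕ → X → Lab)
        (anc : ℕ → Ω → ℕ → Lab → X → ℝ) (g : ℕ → Ω → X → ℝ),
        (∀ t, P.Ad t (lab t)) ∧ (∀ t, P.Ad t (anc t)) ∧
        (∀ t ω l x, l < J → dist (anc t ω l (lab t ω l x)) (kur x) ≤ 2 * (lam * τ ^ l)) ∧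
        (∀ t ω x, 0 ≤ g t ω x) ∧
        (∀ t ω l x x', l < J → lab t ω l x' = lab (t + 1) ω l x →
          dist (anc t ω l (lab (t + 1) ω l x)) (anc (t + 1) ω l (lab (t + 1) ω l x)) ≤ g t ω x) ∧
        P.Ex (fun ω => ∑ t ∈ range n, ∑ i : Fin k,
          ((∑ l ∈ range J,
            if lab t ω l (optCfg s (σ ω) (j ω) t i) = lab (t + 1) ω l (optCfg s (σ ω) (j ω) (t + 1) i)
            then 0 else lam * τ ^ l) + g t ω (optCfg s (σ ω) (j ω) (t + 1) i))) ≤
          C * Real.log (k + 1) * P.Ex (fun ω => optCost s (σ ω) (j ω) n) + B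

/-- Bayesian bound for servers that live in `X → ℝ` -/
def BayesV (k : ℕ) (ρ : ℝ) : Prop :=
  ∀ (X : Type) [MetricSpace X] [Fintype X], Nonempty (Fin (k + 1) ↪ X) → ∀ s : Fin k → X,
    ∃ B : ℝ, ∀ (n : ℕ) (Ω : Type) [Fintype Ω] (P : Bay Ω) (σ : Ω → ℕ → X) (j : Ω → ℕ → Fin k),
      Pref P σ → ∃ c : ℕ → Ω → Fin k → X → ℝ,
        (∀ t, P.Ad t (c t)) ∧ (∀ t ω, ∃ i, c (t + 1) ω i = kur (σ ω t)) ∧
        P.Ex (fun ω => ∑ t ∈ range n, ∑ i, dist (c t ω i) (c (t + 1) ω i)) ≤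
          ρ * P.Ex (fun ω => optCost s (σ ω) (j ω) n) + B

/-- **ADP**. Restrict the prior to its support; the physical server `i` sits at the last request
served by the virtual server `i` (`dist (kur x) (kur y) = dist x y`); its first move costs at most
the diameter. -/
def AdpStmt : Prop := ∀ (k : ℕ) (ρ : ℝ), BayesV k ρ → Bayes k ρ

theorem anchorI : True := by
  have := @Bay.Ex.eq_1; have := @Bay.cond.eq_1; have := @Bay.Ad.eq_1; have := @Tr.ch.eq_1
  have := @Tr.nr.eq_1; have := @Tr.SupA.eq_1; have := @Tr.Wt.eq_1; have := @Tr.mv.eq_1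
  have := @Pref.eq_1; have := @kur.eq_1; have := @pre.eq_1.{0}; have := @optCost.eq_1.{0}
  have := @algCost.eq_1.{0}; have := @optCfg.eq_1.{0}; have := @optCfg.eq_2.{0}; have := @optCfg.eq_def.{0}
  trivial

end Crest.Agent.KS
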