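import Crest.Agent.KS.DefsI

/-!
Row 314 (k-server), part P: rounding, placements of the servers on the tree, the tree of label
paths and the final glue.
-/

set_option autoImplicit false

namespace Crest.Agent.KS

open Finset
open scoped Classical

namespace Tr

variable {V : Type} [Fintype V] (T : Tr V)

/-- `u` is `x` or an ancestor of `x` -/
def anc (u x : V) : Prop := ∃ n : ℕ, T.par^[n] x = u

/-- number of servers below `v` -/
noncomputable def cnt {k : ℕ} (p : Fin k → V) (v : V) : ℕ :=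
  (univ.filter (fun i => T.anc v (p i))).card

/-- number of servers at `v` -/
noncomputable def park {k : ℕ} (p : Fin k → V) (v : V) : ℕ := (univ.filter (fun i => p i = v)).card

end Tr

/-- **TRE**. Trees. (1) top-down induction (on `dep`). (2) sums over the non-root nodes.
(3) `anc`: reflexive, the root is an ancestor of all nodes, unfolding, `dep` is monotone.
(4) counts: a server strictly below `u` is below exactly one child of `u`. (5) moving a server up one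
edge changes one count. (6) Abel summation along the path of each server. -/
def TreStmt : Prop :=
  ∀ (V : Type) [Fintype V] (T : Tr V),
    (∀ Q : V → Prop, Q T.root → (∀ v, v ≠ T.root → Q (T.par v) → Q v) → ∀ v, Q v) ∧
    (∀ f : V → ℝ, ∑ v ∈ T.nr, f v = ∑ u, ∑ v ∈ T.ch u, f v) ∧
    ((∀ x, T.anc x x) ∧ (∀ x, T.anc T.root x) ∧
      (∀ u x, T.anc u x ↔ u = x ∨ (x ≠ T.root ∧ T.anc u (T.par x))) ∧
      (∀ u x, T.anc u x → T.dep u ≤ T.dep x) ∧ ∀ u x, T.anc u x → T.dep u = T.dep x → u = x) ∧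
    (∀ (k : ℕ) (p : Fin k → V), T.cnt p T.root = k ∧
      ∀ u, T.cnt p u = Tr.park p u + ∑ v ∈ T.ch u, T.cnt p v) ∧
    (∀ (k : ℕ) (p : Fin k → V) (i : Fin k) (v : V), v ≠ T.root → ∀ x,
      T.cnt (Function.update p i v) x =
        T.cnt (Function.update p i (T.par v)) x + if x = v then 1 else 0) ∧
    ∀ (k : ℕ) (p : Fin k → V) (M : V → ℝ),
      ∑ i, M (p i) = k * M T.root + ∑ v ∈ T.nr, (M v - M (T.par v)) * T.cnt p v

/-- `Z` distributes `y` units evenly over `N` copies -/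
def Bal (N y : ℕ) (Z : Fin N → ℕ) : Prop := ∑ n, Z n = y ∧ ∀ n, y / N ≤ Z n ∧ Z n ≤ y / N + 1

/-- **RB1**. Change the total one unit at a time: to add a unit increase a copy with the value
`y / N` (it exists since `y < N (y / N + 1)`); to remove one decrease a copy with the largest value
(if `N ∣ y` all copies are equal). -/
def Rb1Stmt : Prop :=
  ∀ (N : ℕ), 0 < N → ∀ (y y' : ℕ) (Z : Fin N → ℕ), Bal N y Z →
    ∃ Z' : Fin N → ℕ, Bal N y' Z' ∧ ∑ n, |(Z' n : ℝ) - Z n| ≤ |(y' : ℝ) - y|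

/-- **RB** (uses RB1). One level of the rounding. First adjust each child by RB1 (cost
`A = ∑ |y' - y|`); the total excess `∑ n, (∑ v, Z'' v n - U' n)₊` is at most `A + ∑ |U' - U|`. While
some copy `n` has an excess, some copy `n'` has a slack (the totals satisfy `≤`), so
`∑ v, Z'' v n ≥ yu / N + 1 > yu / N ≥ ∑ v, Z'' v n'` and a child has `Z'' v n > Z'' v n'`; swap these
two values (they differ by one): cost 2, the excess drops by one. -/
def RbStmt : Prop :=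
  ∀ (N : ℕ), 0 < N → ∀ (ι : Type) (C : Finset ι) (y y' : ι → ℕ) (Z : ι → Fin N → ℕ) (yu : ℕ)
    (U U' : Fin N → ℕ), (∀ v ∈ C, Bal N (y v) (Z v)) → (∀ n, ∑ v ∈ C, Z v n ≤ U n) →
    Bal N yu U' → ∑ v ∈ C, y' v ≤ yu →
    ∃ Z' : ι → Fin N → ℕ, (∀ v ∈ C, Bal N (y' v) (Z' v)) ∧ (∀ n, ∑ v ∈ C, Z' v n ≤ U' n) ∧
      ∑ v ∈ C, ∑ n, |(Z' v n : ℝ) - Z v n| ≤
        3 * ∑ v ∈ C, |(y' v : ℝ) - y v| + 2 * ∑ n, |(U' n : ℝ) - U n|

/-- a balanced family of `N` integral configurations -/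
def GoodZ {V : Type} [Fintype V] (T : Tr V) (N : ℕ) (y : V → ℕ) (Z : V → Fin N → ℕ) : Prop :=
  (∀ v, Bal N (y v) (Z v)) ∧ ∀ u n, ∑ v ∈ T.ch u, Z v n ≤ Z u n

/-- **RT** (uses TRE, RB). The whole tree, level by level from the root (induction on `d`: a family
that is right on the nodes of depth `≤ d`; the root keeps its values). With
`S = ∑ v ∈ nr, wt v ∑ n |Z' - Z|` one gets `S ≤ 3 mv + (2/τ) S`. -/
def RtStmt : Prop :=
  ∀ (V : Type) [Fintype V] (T : Tr V) (τ : ℝ) (wt : V → ℝ), 16 ≤ τ → T.Wt τ wt →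
    ∀ (N : ℕ), 0 < N → ∀ (y y' : V → ℕ) (Z : V → Fin N → ℕ), GoodZ T N y Z →
      y' T.root = y T.root → T.SupA (fun v => (y' v : ℝ)) →
      ∃ Z' : V → Fin N → ℕ, GoodZ T N y' Z' ∧
        ∑ n, T.mv wt (fun v => (Z v n : ℝ)) (fun v => (Z' v n : ℝ)) ≤
          6 * T.mv wt (fun v => (y v : ℝ)) (fun v => (y' v : ℝ))

/-- **RS** (uses BAY, RT). Rounding of an adapted fractional solution. `y = ⌊N z⌋₊` (superadditive,
`|Δ y| ≤ N |Δ z| + 1`), `N ≥ 6 n ∑ wt`. The families are defined by recursion on `t` with a choice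
function of (old family, new `y`) (the first one from the family that is `k` at the root and `0`
elsewhere), so they are adapted. Take the best copy; `∑ n, Z v n = y v ≤ N z v`. -/
def RsStmt : Prop :=
  ∀ (V : Type) [Fintype V] (T : Tr V) (τ : ℝ) (wt : V → ℝ), 16 ≤ τ → T.Wt τ wt →
    ∀ (k n : ℕ) (Ω : Type) [Fintype Ω] (P : Bay Ω) (z D : ℕ → Ω → V → ℝ) (K : ℝ), 0 ≤ K →
      (∀ t, P.Ad t (z t)) → (∀ t ω, z t ω T.root = k) → (∀ t ω, T.SupA (z t ω)) →
      (∀ t ω v, 0 ≤ z t ω v) → (∀ t ω v, 0 ≤ D t ω v) →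
      ∃ Z : ℕ → Ω → V → ℕ,
        (∀ t, P.Ad t (Z t)) ∧ (∀ t ω, Z t ω T.root = k) ∧
        (∀ t ω, T.SupA (fun v => (Z t ω v : ℝ))) ∧
        (∀ t ω v, (0 < Z t ω v → 0 < z t ω v) ∧ (1 ≤ z t ω v → 1 ≤ Z t ω v)) ∧
        P.Ex (fun ω => ∑ t ∈ range n,
          (K * T.mv wt (fun v => (Z t ω v : ℝ)) (fun v => (Z (t + 1) ω v : ℝ)) +
            ∑ v ∈ T.nr, D t ω v * Z (t + 1) ω v)) ≤
          P.Ex (fun ω => ∑ t ∈ range n,
            (6 * K * T.mv wt (z t ω) (z (t + 1) ω) + ∑ v ∈ T.nr, D t ω v * z (t + 1) ω v)) + K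

/-- **UP** (uses TRE). Induction on `∑ v, (cnt p v - Z v)`: at a deepest `v` with `cnt p v > Z v`
(not the root) a server is parked, since `park = cnt - ∑ children cnt > Z v - ∑ children Z ≥ 0`;
move it to the parent. -/
def UpStmt : Prop :=
  ∀ (V : Type) [Fintype V] (T : Tr V) (k : ℕ) (Z : V → ℕ), Z T.root = k →
    T.SupA (fun v => (Z v : ℝ)) → ∀ p : Fin k → V,
    ∃ p₁ : Fin k → V, (∀ v, T.cnt p₁ v = min (T.cnt p v) (Z v)) ∧
      ∀ (wt : V → ℝ) (E : Type) [PseudoMetricSpace E] (a : V → E),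
        (∀ v, v ≠ T.root → 0 < T.cnt p v → dist (a v) (a (T.par v)) ≤ wt v) →
        ∑ i, dist (a (p i)) (a (p₁ i)) ≤ ∑ v ∈ T.nr, wt v * ((T.cnt p v : ℝ) - T.cnt p₁ v)

/-- **DOWN** (uses TRE). Induction on `∑ v, (Z v - cnt p v)`: at a highest `v` with
`cnt p v < Z v` (not the root) the parent `u` has `cnt p u = Z u`, so a server is parked at `u`; move
it to `v`. -/
def DownStmt : Prop :=
  ∀ (V : Type) [Fintype V] (T : Tr V) (k : ℕ) (Z : V → ℕ), Z T.root = k →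
    T.SupA (fun v => (Z v : ℝ)) → ∀ p : Fin k → V, (∀ v, T.cnt p v ≤ Z v) →
    ∃ p₂ : Fin k → V, (∀ v, T.cnt p₂ v = Z v) ∧
      ∀ (wt : V → ℝ) (E : Type) [PseudoMetricSpace E] (a : V → E),
        (∀ v, v ≠ T.root → 0 < Z v → dist (a v) (a (T.par v)) ≤ wt v) →
        ∑ i, dist (a (p i)) (a (p₂ i)) ≤ ∑ v ∈ T.nr, wt v * ((Z v : ℝ) - T.cnt p v)

/-- **MT** (uses TRE, UP, DOWN). One step: up with the old anchors, shift of the anchors (Abel
summation, `M` is monotone along the tree), down with the new anchors. -/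
def MtStmt : Prop :=
  ∀ (V : Type) [Fintype V] (T : Tr V) (k : ℕ) (Z : V → ℕ), Z T.root = k →
    T.SupA (fun v => (Z v : ℝ)) → ∀ p : Fin k → V,
    ∃ p' : Fin k → V, (∀ v, T.cnt p' v = Z v) ∧
      ∀ (wt : V → ℝ) (K : ℝ) (E : Type) [PseudoMetricSpace E] (a a' : V → E) (M : V → ℝ),
        (∀ v, v ≠ T.root → 0 < T.cnt p v → dist (a v) (a (T.par v)) ≤ K * wt v) →
        (∀ v, v ≠ T.root → 0 < Z v → dist (a' v) (a' (T.par v)) ≤ K * wt v) →
        M T.root = 0 → (∀ v, M (T.par v) ≤ M v) →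
        (∀ v, 0 < T.cnt p v → 0 < Z v → dist (a v) (a' v) ≤ M v) →
        ∑ i, dist (a (p i)) (a' (p' i)) ≤
          K * T.mv wt (fun v => (T.cnt p v : ℝ)) (fun v => (Z v : ℝ)) +
            ∑ v ∈ T.nr, (M v - M (T.par v)) * Z v

/-- some server of the offline path may be below `v` at time `t` -/
def Live {V Ω : Type} [Fintype V] [Fintype Ω] {k : ℕ} (T : Tr V) (P : Bay Ω)
    (q : ℕ → Ω → Fin k → V) (t : ℕ) (ω : Ω) (v : V) : Prop :=
  ∃ b, P.eqv t ω b ∧ ∃ i, T.anc v (q t b i)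

/-- **PHY** (uses BAY, TRE, H, RS, MT). The algorithm on a tree with moving anchors. Apply H to
`N = cnt q`, RS with `D t ω v = M t ω v - M t ω (par v)`, define the placements by recursion on `t`
with a choice function of (old placement, new counts). `0 < Z → 0 < z → 0 < cond N → Live`;
`Ex (D z) ≤ 2 Ex (D cond N) = 2 Ex (D N)` and Abel summation. -/
def PhyStmt : Prop :=
  ∃ C : ℝ, 0 ≤ C ∧ ∀ k : ℕ, 2 ≤ k → ∀ (V : Type) [Fintype V] (T : Tr V) (τ : ℝ) (wt : V → ℝ),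
    16 ≤ τ → T.Wt τ wt → ∀ (n : ℕ) (Ω : Type) [Fintype Ω] (P : Bay Ω) (q : ℕ → Ω → Fin k → V)
      (E : Type) [PseudoMetricSpace E] (a : ℕ → Ω → V → E) (M : ℕ → Ω → V → ℝ) (K : ℝ)
      (lf : ℕ → Ω → V), 0 ≤ K → (∀ t, P.Ad t (a t)) → (∀ t, P.Ad (t + 1) (M t)) →
      (∀ t ω v, v ≠ T.root → Live T P q t ω v → dist (a t ω v) (a t ω (T.par v)) ≤ K * wt v) →
      (∀ t ω, M t ω T.root = 0) → (∀ t ω v, M t ω (T.par v) ≤ M t ω v) →
      (∀ t ω v, Live T P q t ω v → Live T P q (t + 1) ω v →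
        dist (a t ω v) (a (t + 1) ω v) ≤ M t ω v) →
      (∀ t ω, T.ch (lf t ω) = ∅ ∧ ∀ b, P.eqv (t + 1) ω b → ∃ i, q (t + 1) b i = lf t ω) →
      ∃ c : ℕ → Ω → Fin k → E,
        (∀ t, P.Ad t (c t)) ∧ (∀ t ω, ∃ i, c (t + 1) ω i = a (t + 1) ω (lf t ω)) ∧
        P.Ex (fun ω => ∑ t ∈ range n, ∑ i, dist (c t ω i) (c (t + 1) ω i)) ≤
          C * K * Real.log (k + 1) *
            (P.Ex (fun ω => ∑ t ∈ range n,
              T.mv wt (fun v => (T.cnt (q t ω) v : ℝ)) (fun v => (T.cnt (q (t + 1) ω) v : ℝ))) +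
              k * wt T.root) +
          2 * P.Ex (fun ω => ∑ t ∈ range n, ∑ i, M t ω (q (t + 1) ω i)) + K

/-- the tree of the label paths of length `D` -/
structure LabTree (L : Type) (D : ℕ) (V : Type) [Fintype V] where
  T : Tr V
  lev : V → ℕ
  node : ℕ → (ℕ → L) → V
  lbl : V → ℕ → L
  lev_le : ∀ v, lev v ≤ D
  lev_root : ∀ v, lev v = D ↔ v = T.root
  lev_par : ∀ v, v ≠ T.root → lev (T.par v) = lev v + 1
  lev_node : ∀ i f, i ≤ D → lev (node i f) = i
  par_node : ∀ i f, i < D → T.par (node i f) = node (i + 1) f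
  node_eq : ∀ i f g, i ≤ D → (node i f = node i g ↔ ∀ l, i ≤ l → l < D → f l = g l)
  node_lbl : ∀ v, node (lev v) (lbl v) = v
  anc_node : ∀ v f, T.anc v (node 0 f) ↔ v = node (lev v) f

/-- **LAB**. `V = {(i, f) : Fin (D+1) × (Fin D → Option L) // ∀ l, f l = none ↔ l < i}`, the parent of
`(i, f)` is `(i+1, update f i none)`, `dep = D - i`. -/
def LabStmt : Prop :=
  ∀ (L : Type) [Fintype L] [Nonempty L] (D : ℕ),
    ∃ (V : Type) (_ : Fintype V), Nonempty (LabTree L D V)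

/-- **MVQ**. `|cnt q' v - cnt q v| ≤ ∑ i, |1[anc v (q' i)] - 1[anc v (q i)]|`; for one server only the
nodes `node l f`, `node l f'` with `node l f ≠ node l f'` count; such a level lies below a level where
the labels differ, and `∑_{l ≤ l'} τ^l ≤ 2 τ^l'`. -/
def MvqStmt : Prop :=
  ∀ (L : Type) (D : ℕ) (V : Type) [Fintype V] (G : LabTree L D V) (w τ : ℝ), 0 < w → 2 ≤ τ →
    ∀ (k : ℕ) (f f' : Fin k → ℕ → L),
      G.T.mv (fun v => w * τ ^ G.lev v) (fun v => (G.T.cnt (fun i => G.node 0 (f i)) v : ℝ))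
        (fun v => (G.T.cnt (fun i => G.node 0 (f' i)) v : ℝ)) ≤
        4 * ∑ i, ∑ l ∈ range D, if f i l = f' i l then 0 else w * τ ^ l

/-- the result of part P -/
def GlueStmt : Prop := ∃ C : ℝ, ∀ k : ℕ, 2 ≤ k → BayesV k (C * Real.log (k + 1) ^ 2)

theorem anchorP : True := by
  have := @Tr.anc.eq_1; have := @Tr.cnt.eq_1; have := @Tr.park.eq_1; have := @Bal.eq_1
  have := @GoodZ.eq_1; have := @Live.eq_1
  trivial

end Crest.Agent.KS
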