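import Crest.Agent.KS.DefsP

/-! Row 314 (k-server), task DOWN. -/

set_option autoImplicit false

namespace Crest.Agent.KS

open Finset
open scoped Classical

theorem DOWN_proof (hTre : TreStmt) : DownStmt := by
  intro V _ T k Z hZr hZ
  obtain ⟨-, -, -, hcnt, hupd, -⟩ := hTre V T
  have hZn : ∀ u, ∑ v ∈ T.ch u, Z v ≤ Z u := by
    intro u
    have : ∑ v ∈ T.ch u, (Z v : ℝ) ≤ (Z u : ℝ) := hZ u
    exact_mod_cast this
  have key : ∀ (n : ℕ) (p : Fin k → V), (∀ v, T.cnt p v ≤ Z v) →
      ∑ v, (Z v - T.cnt p v) = n →
      ∃ p₂ : Fin k → V, (∀ v, T.cnt p₂ v = Z v) ∧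
        ∀ (wt : V → ℝ) (E : Type) [PseudoMetricSpace E] (a : V → E),
          (∀ v, v ≠ T.root → 0 < Z v → dist (a v) (a (T.par v)) ≤ wt v) →
          ∑ i, dist (a (p i)) (a (p₂ i)) ≤ ∑ v ∈ T.nr, wt v * ((Z v : ℝ) - T.cnt p v) := by
    intro n
    induction n with
    | zero =>
      intro p hp h0
      have heq : ∀ v, T.cnt p v = Z v := by
        intro v
        have := (Finset.sum_eq_zero_iff.1 h0) v (mem_univ v)
        have := hp v
        omega
      refine ⟨p, heq, fun wt E _ a _ => ?_⟩
      simp [heq]
    | succ n ih =>
      intro p hp hn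
      have hne : (univ.filter (fun v => T.cnt p v < Z v)).Nonempty := by
        by_contra hcon
        rw [Finset.not_nonempty_iff_eq_empty, Finset.filter_eq_empty_iff] at hcon
        have : ∑ v, (Z v - T.cnt p v) = 0 := by
          refine Finset.sum_eq_zero fun v hv => ?_
          have := hcon hv
          omega
        omega
      obtain ⟨v, hv, hmin⟩ := Finset.exists_min_image _ T.dep hne
      have hv' : T.cnt p v < Z v := (mem_filter.1 hv).2
      have hvr : v ≠ T.root := by
        intro h
        rw [h, (hcnt k p).1, hZr] at hv'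
        exact lt_irrefl _ hv'
      have hu : T.cnt p (T.par v) = Z (T.par v) := by
        by_contra hcon
        have h1 : T.cnt p (T.par v) < Z (T.par v) := lt_of_le_of_ne (hp _) hcon
        have h2 := hmin (T.par v) (mem_filter.2 ⟨mem_univ _, h1⟩)
        have h3 := T.dep_par v hvr
        omega
      have hvch : v ∈ T.ch (T.par v) := by
        unfold Tr.ch; simp [hvr]
      have hlt : ∑ x ∈ T.ch (T.par v), T.cnt p x < ∑ x ∈ T.ch (T.par v), Z x :=
        Finset.sum_lt_sum (fun x _ => hp x) ⟨v, hvch, hv'⟩
      have hpark : 0 < Tr.park p (T.par v) := by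
        have h1 := (hcnt k p).2 (T.par v)
        have h2 := hZn (T.par v)
        omega
      obtain ⟨i, hi⟩ := Finset.card_pos.1 hpark
      have hi' : p i = T.par v := (mem_filter.1 hi).2
      have hpp : Function.update p i (T.par v) = p := by
        rw [← hi']; exact Function.update_eq_self i p
      have hc : ∀ x, T.cnt (Function.update p i v) x = T.cnt p x + if x = v then 1 else 0 := by
        intro x
        rw [hupd k p i v hvr x, hpp]
      have hp' : ∀ x, T.cnt (Function.update p i v) x ≤ Z x := by
        intro x
        rw [hc x]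
        split_ifs with h
        · rw [h]; omega
        · simpa using hp x
      have hn' : ∑ x, (Z x - T.cnt (Function.update p i v) x) = n := by
        have h1 : ∑ x, (Z x - T.cnt p x) =
            ∑ x, ((Z x - T.cnt (Function.update p i v) x) + if x = v then 1 else 0) := by
          refine Finset.sum_congr rfl fun x _ => ?_
          rw [hc x]
          split_ifs with h
          · rw [h]; omega
          · simp
        rw [Finset.sum_add_distrib, Finset.sum_ite_eq' univ v (fun _ => 1), if_pos (mem_univ v)] at h1
        omega
      obtain ⟨p₂, hp₂, hcost⟩ := ih (Function.update p i v) hp' hn'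
      refine ⟨p₂, hp₂, fun wt E _ a ha => ?_⟩
      have h1 := hcost wt E a ha
      have h2 : ∑ j, dist (a (p j)) (a (p₂ j)) ≤
          ∑ j, (dist (a (p j)) (a (Function.update p i v j)) +
            dist (a (Function.update p i v j)) (a (p₂ j))) :=
        Finset.sum_le_sum fun j _ => dist_triangle _ _ _
      have h3 : ∑ j, dist (a (p j)) (a (Function.update p i v j)) = dist (a v) (a (T.par v)) := by
        rw [Finset.sum_eq_single i]
        · rw [Function.update_self, hi', dist_comm]
        · intro j _ hj
          rw [Function.update_of_ne hj, dist_self]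
        · intro h; exact absurd (mem_univ i) h
      have h4 := ha v hvr (by omega)
      have hvnr : v ∈ T.nr := by
        unfold Tr.nr; simp [hvr]
      have h5 : ∑ x ∈ T.nr, wt x * ((Z x : ℝ) - T.cnt p x) =
          ∑ x ∈ T.nr, (wt x * ((Z x : ℝ) - T.cnt (Function.update p i v) x) +
            if x = v then wt v else 0) := by
        refine Finset.sum_congr rfl fun x _ => ?_
        rw [hc x]
        split_ifs with h
        · rw [h]; push_cast; ring
        · simp
      rw [Finset.sum_add_distrib, Finset.sum_ite_eq' T.nr v (fun _ => wt v), if_pos hvnr] at h5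
      rw [Finset.sum_add_distrib, h3] at h2
      linarith
  intro p hp
  exact key _ p hp rfl

end Crest.Agent.KS
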