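import Mathlib

/-! Row 314 (k-server), part E: generic lemmas. -/

set_option autoImplicit false

namespace Crest.Agent.KS.ELem

open Finset
open scoped Classical

/-- `x / (y + x) ≤ log (y + x) - log y` -/
theorem div_le_log_sub {x y : ℝ} (hx : 0 ≤ x) (hy : 0 < y) :
    x / (y + x) ≤ Real.log (y + x) - Real.log y := by
  have h1 : 0 < y + x := by linarith
  have h3 := Real.log_le_sub_one_of_pos (div_pos hy h1)
  rw [Real.log_div hy.ne' h1.ne'] at h3
  have h4 : x / (y + x) = 1 - y / (y + x) := by field_simp; ring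
  rw [h4]; linarith

/-- the sum of the masses divided by the cumulated masses -/
theorem sum_div_cum {X : Type} (d m : X → ℝ) (hm : ∀ x, 0 ≤ m x) (r c : ℝ) (hc : 0 < c)
    (S : Finset X) (h : c ≤ ∑ z ∈ S.filter (fun z => d z ≤ r), m z) :
    ∑ x ∈ S, m x / ∑ z ∈ S.filter (fun z => d z ≤ max (d x) r), m z ≤
      1 + Real.log (∑ x ∈ S, m x) - Real.log c := by
  induction S using Finset.induction_on_max_value d with
  | empty => simp at h; linarith
  | insert a S ha hmax ih =>
    by_cases har : d a ≤ r
    · have hall : ∀ x, (insert a S).filter (fun z => d z ≤ max (d x) r) = insert a S := by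
        intro x
        apply Finset.filter_true_of_mem
        intro z hz
        rcases Finset.mem_insert.1 hz with rfl | hz
        · exact har.trans (le_max_right _ _)
        · exact ((hmax z hz).trans har).trans (le_max_right _ _)
      have hle : c ≤ ∑ z ∈ insert a S, m z :=
        h.trans (Finset.sum_le_sum_of_subset_of_nonneg (Finset.filter_subset _ _)
          (fun z _ _ => hm z))
      simp only [hall]
      rw [← Finset.sum_div, div_self (by linarith)]
      have := Real.log_le_log hc hle
      linarith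
    · have h1 : (insert a S).filter (fun z => d z ≤ r) = S.filter (fun z => d z ≤ r) := by
        rw [Finset.filter_insert, if_neg har]
      rw [h1] at h
      have ih' := ih h
      have hS : c ≤ ∑ z ∈ S, m z :=
        h.trans (Finset.sum_le_sum_of_subset_of_nonneg (Finset.filter_subset _ _)
          (fun z _ _ => hm z))
      rw [Finset.sum_insert ha, Finset.sum_insert ha]
      have h2 : (insert a S).filter (fun z => d z ≤ max (d a) r) = insert a S := by
        apply Finset.filter_true_of_mem
        intro z hz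
        rcases Finset.mem_insert.1 hz with rfl | hz
        · exact le_max_left _ _
        · exact (hmax z hz).trans (le_max_left _ _)
      rw [h2, Finset.sum_insert ha]
      have h3 := div_le_log_sub (hm a) (lt_of_lt_of_le hc hS)
      have h4 : ∑ x ∈ S, m x / ∑ z ∈ (insert a S).filter (fun z => d z ≤ max (d x) r), m z ≤
          ∑ x ∈ S, m x / ∑ z ∈ S.filter (fun z => d z ≤ max (d x) r), m z := by
        refine Finset.sum_le_sum fun x _ => ?_
        apply div_le_div_of_nonneg_left (hm x)
        · refine lt_of_lt_of_le hc (h.trans ?_)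
          apply Finset.sum_le_sum_of_subset_of_nonneg
          · intro z hz
            rw [Finset.mem_filter] at hz ⊢
            exact ⟨hz.1, hz.2.trans (le_max_right _ _)⟩
          · exact fun z _ _ => hm z
        · apply Finset.sum_le_sum_of_subset_of_nonneg
          · exact Finset.filter_subset_filter _ (Finset.subset_insert _ _)
          · exact fun z _ _ => hm z
      rw [add_comm (m a) (∑ x ∈ S, m x)]
      linarith

/-- telescoping with overlap `p` -/
theorem tele (u : ℕ → ℝ) (lo hi : ℝ) (hlo : ∀ l, lo ≤ u l) (hhi : ∀ l, u l ≤ hi) (p J : ℕ) :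
    ∑ l ∈ range J, (u (l + p) - u l) ≤ p * (hi - lo) := by
  have key : ∀ J, ∑ l ∈ range J, (u (l + p) - u l) =
      ∑ i ∈ range p, (u (J + i) - u i) := by
    intro J
    induction J with
    | zero => simp
    | succ J ih =>
      rw [Finset.sum_range_succ, ih]
      have h1 : ∑ i ∈ range p, (u (J + 1 + i) - u (J + i)) = u (J + p) - u J := by
        have := Finset.sum_range_sub (fun i => u (J + i)) p
        simpa [add_assoc, add_comm, add_left_comm] using this
      rw [← h1, ← Finset.sum_add_distrib]
      refine Finset.sum_congr rfl fun i _ => by ring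
  rw [key]
  calc _ ≤ ∑ _i ∈ range p, (hi - lo) :=
        Finset.sum_le_sum fun i _ => by linarith [hhi (J + i), hlo i]
    _ = _ := by simp [mul_sub]

/-- telescoping of a monotone bounded function along a geometric sequence -/
theorem tele_geom (G : ℝ → ℝ) (hG : Monotone G) (lo hi : ℝ) (hlo : ∀ x, lo ≤ G x)
    (hhi : ∀ x, G x ≤ hi) (lam τ a A : ℝ) (hlam : 0 ≤ lam) (hτ : 0 ≤ τ) (p J : ℕ)
    (hA : A ≤ a * τ ^ p) :
    ∑ l ∈ range J, (G (A * (lam * τ ^ l)) - G (a * (lam * τ ^ l))) ≤ p * (hi - lo) := by
  refine le_trans (Finset.sum_le_sum fun l _ => ?_)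
    (tele (fun l => G (a * (lam * τ ^ l))) lo hi (fun _ => hlo _) (fun _ => hhi _) p J)
  have : A * (lam * τ ^ l) ≤ a * (lam * τ ^ (l + p)) := by
    have h0 : 0 ≤ lam * τ ^ l := by positivity
    calc _ ≤ a * τ ^ p * (lam * τ ^ l) := mul_le_mul_of_nonneg_right hA h0
      _ = _ := by ring
  have := hG this
  linarith

/-- geometric sum of the scales below a bound -/
theorem geom_below (lam τ D : ℝ) (hlam : 0 < lam) (hτ : 2 ≤ τ) (hD : 0 ≤ D) (J : ℕ) :
    ∑ l ∈ range J, (if lam * τ ^ l ≤ D then lam * τ ^ l else 0) ≤ 2 * D := by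
  have key : ∀ J, ∑ l ∈ range J, (if lam * τ ^ l ≤ D then lam * τ ^ l else 0) ≤
      min (2 * D) (lam * τ ^ J) := by
    intro J
    induction J with
    | zero => simp; exact ⟨hD, hlam.le⟩
    | succ J ih =>
      rw [Finset.sum_range_succ]
      have h0 : 0 < lam * τ ^ J := by positivity
      have h1 : 2 * (lam * τ ^ J) ≤ lam * τ ^ (J + 1) := by rw [pow_succ]; nlinarith
      have h2 := min_le_left (2 * D) (lam * τ ^ J)
      have h3 := min_le_right (2 * D) (lam * τ ^ J)
      split_ifs with h
      · apply le_min <;> linarith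
      · apply le_min <;> linarith
  exact (key J).trans (min_le_left _ _)

/-- geometric sum of the inverse scales above a bound -/
theorem geom_above (lam τ D : ℝ) (hlam : 0 < lam) (hτ : 2 ≤ τ) (hD : 0 ≤ D) (J : ℕ) :
    ∑ l ∈ range J, (if D ≤ lam * τ ^ l then D / (lam * τ ^ l) else 0) ≤ 2 := by
  have key : ∀ J, ∑ l ∈ range J, (if D ≤ lam * τ ^ l then D / (lam * τ ^ l) else 0) ≤
      max 0 (2 - 2 * D / (lam * τ ^ J)) := by
    intro J
    induction J with
    | zero => simp
    | succ J ih =>
      rw [Finset.sum_range_succ]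
      have h0 : 0 < lam * τ ^ J := by positivity
      have h1 : 2 * (lam * τ ^ J) ≤ lam * τ ^ (J + 1) := by rw [pow_succ]; nlinarith
      have h4 : 2 * D / (lam * τ ^ (J + 1)) ≤ D / (lam * τ ^ J) := by
        rw [div_le_div_iff₀ (by linarith) h0]; nlinarith
      have h5 : 2 * D / (lam * τ ^ J) = 2 * (D / (lam * τ ^ J)) := by ring
      have h6 : 0 ≤ D / (lam * τ ^ J) := by positivity
      split_ifs with h
      · have h7 : D / (lam * τ ^ J) ≤ 1 := (div_le_one h0).2 h
        have h8 : max 0 (2 - 2 * D / (lam * τ ^ J)) = 2 - 2 * D / (lam * τ ^ J) :=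
          max_eq_right (by linarith)
        rw [h8] at ih
        refine le_trans ?_ (le_max_right _ _)
        linarith
      · refine le_trans (by simpa using ih) (max_le_max le_rfl (by linarith))
  refine (key J).trans (max_le (by norm_num) ?_)
  have : 0 ≤ 2 * D / (lam * τ ^ J) := by positivity
  linarith

/-- `∑_{j = 1}^{N} log (N / j) ≤ N` -/
theorem sum_log_div (N : ℕ) : ∑ j ∈ range N, Real.log ((N : ℝ) / (j + 1)) ≤ N := by
  induction N with
  | zero => simp
  | succ N ih =>
    rcases Nat.eq_zero_or_pos N with rfl | hN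
    · simp
    have hN' : (0 : ℝ) < N := by exact_mod_cast hN
    rw [Finset.sum_range_succ]
    have h1 : ∀ j ∈ range N, Real.log (((N + 1 : ℕ) : ℝ) / (j + 1)) ≤
        Real.log ((N : ℝ) / (j + 1)) + 1 / N := by
      intro j _
      have hj : (0 : ℝ) < j + 1 := by positivity
      have e : ((N + 1 : ℕ) : ℝ) / (j + 1) = (N : ℝ) / (j + 1) * ((N + 1) / N) := by
        push_cast; field_simp
      rw [e, Real.log_mul (by positivity) (by positivity)]
      have h2 := Real.log_le_sub_one_of_pos (show (0 : ℝ) < (N + 1) / N by positivity)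
      have h3 : ((N : ℝ) + 1) / N - 1 = 1 / N := by field_simp; ring
      linarith
    have h2 := Finset.sum_le_sum h1
    rw [Finset.sum_add_distrib] at h2
    have h3 : ∑ _j ∈ range N, (1 : ℝ) / N = 1 := by simp; field_simp
    have h4 : Real.log (((N + 1 : ℕ) : ℝ) / (N + 1)) = 0 := by push_cast; rw [div_self (by positivity)]; simp
    push_cast at h2 h4 ⊢
    linarith

/-- moving a centre towards `y`: the change of the squared distance to any `x` -/
theorem move_sq {V : Type} [NormedAddCommGroup V] [NormedSpace ℝ V] (φ y x : V) (t : ℝ)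
    (ht0 : 0 ≤ t) (ht1 : t ≤ 1) :
    dist (φ + t • (y - φ)) x ^ 2 - dist φ x ^ 2 ≤
      t * dist φ y * (2 * dist x y - dist φ y) := by
  have h1 : dist (φ + t • (y - φ)) x ≤ (1 - t) * dist φ x + t * dist x y := by
    have e : φ + t • (y - φ) - x = (1 - t) • (φ - x) + t • (y - x) := by
      simp only [smul_sub, sub_smul, one_smul]; abel
    rw [dist_eq_norm, e]
    refine (norm_add_le _ _).trans ?_
    rw [norm_smul, norm_smul, Real.norm_of_nonneg (by linarith), Real.norm_of_nonneg ht0,
      dist_eq_norm, dist_comm x y, dist_eq_norm]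
  have h2 : dist (φ + t • (y - φ)) x ^ 2 ≤ ((1 - t) * dist φ x + t * dist x y) ^ 2 :=
    pow_le_pow_left₀ dist_nonneg h1 2
  set a := dist φ x
  set b := dist φ y
  set d := dist x y
  have h3 : ((1 - t) * a + t * d) ^ 2 ≤ (1 - t) * a ^ 2 + t * d ^ 2 := by
    nlinarith [mul_nonneg ht0 (sub_nonneg.2 ht1), sq_nonneg (a - d)]
  have h4 : |b - d| ≤ a := by
    have := abs_dist_sub_le φ x y
    simpa [a, b, d] using this
  have h5 : (b - d) ^ 2 ≤ a ^ 2 := by
    have := sq_le_sq' (neg_le_of_abs_le h4) (le_of_abs_le h4)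
    simpa using this
  nlinarith

theorem move_dist {V : Type} [NormedAddCommGroup V] [NormedSpace ℝ V] (φ y : V) (t : ℝ)
    (ht0 : 0 ≤ t) (ht1 : t ≤ 1) :
    dist φ (φ + t • (y - φ)) = t * dist φ y ∧ dist (φ + t • (y - φ)) y = (1 - t) * dist φ y := by
  constructor
  · rw [dist_self_add_right, norm_smul, Real.norm_of_nonneg ht0, dist_comm, dist_eq_norm]
  · have e : φ + t • (y - φ) - y = (1 - t) • (φ - y) := by
      simp only [smul_sub, sub_smul, one_smul]; abel
    rw [dist_eq_norm, e, norm_smul, Real.norm_of_nonneg (by linarith), dist_eq_norm]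

/-- the entropy inequality: `g * log (1 / v) ≤ g ^ 2 / v + 1` -/
theorem ent {g v : ℝ} (hg : 0 ≤ g) (hv : 0 < v) : g * Real.log (1 / v) ≤ g ^ 2 / v + 1 := by
  rcases hg.eq_or_lt with rfl | hg
  · simp
  have h1 := Real.log_le_sub_one_of_pos (div_pos hg hv)
  have h2 := Real.log_le_sub_one_of_pos (div_pos one_pos hg)
  have e : Real.log (1 / v) = Real.log (g / v) + Real.log (1 / g) := by
    rw [← Real.log_mul (by positivity) (by positivity)]; congr 1; field_simp
  rw [e]
  have h3 : g * Real.log (g / v) ≤ g * (g / v - 1) := mul_le_mul_of_nonneg_left h1 hg.le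
  have h4 : g * Real.log (1 / g) ≤ g * (1 / g - 1) := mul_le_mul_of_nonneg_left h2 hg.le
  have h5 : g * (1 / g - 1) = 1 - g := by field_simp
  have h6 : g * (g / v - 1) = g ^ 2 / v - g := by field_simp
  nlinarith

end Crest.Agent.KS.ELem
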