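import Crest.Agent.KS.Det

/-! Randomized policies: deterministic policies, mixing (Kuhn), minimax and compactness. -/

namespace Crest.Agent.KS
open Crest.LogicCS.KServer Finset

variable {X : Type*} [MetricSpace X] {k : ℕ}

omit [MetricSpace X] in
theorem sum_ofFn_succ {n : ℕ} (G : (Fin (n + 1) → Fin k) → ℝ) :
    ∑ j, G j = ∑ i : Fin k, ∑ j : Fin n → Fin k, G (Fin.cons i j) := by
  rw [← (Fin.consEquiv fun _ : Fin (n + 1) => Fin k).sum_comp, Fintype.sum_prod_type]
  rfl

omit [MetricSpace X] in
theorem pathProb_nonneg (A : Policy X k) (reqs : List X) (past : List (Fin k))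
    (π : List (X × Fin k)) : 0 ≤ pathProb A reqs past π := by
  induction π generalizing reqs past with
  | nil => simp [pathProb]
  | cons a rest ih =>
    obtain ⟨r, i⟩ := a
    simp only [pathProb]
    exact mul_nonneg (A.prob_nonneg _ _ _) (ih _ _)

omit [MetricSpace X] in
theorem sum_pathProb (A : Policy X k) (reqs : List X) (past : List (Fin k)) (σ : List X) :
    ∑ j : Fin σ.length → Fin k, pathProb A reqs past (σ.zip (List.ofFn j)) = 1 := by
  induction σ generalizing reqs past with
  | nil => simp [pathProb]
  | cons r rest ih =>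
    have := sum_ofFn_succ (k := k) (n := rest.length)
      fun j => pathProb A reqs past ((r :: rest).zip (List.ofFn j))
    refine this.trans ?_
    simp only [List.ofFn_succ, Fin.cons_zero, Fin.cons_succ, List.zip_cons_cons, pathProb,
      ← Finset.mul_sum, ih, mul_one]
    exact A.prob_sum _ _

/-- the policy that follows a deterministic strategy -/
def detPolicy (f : List X → Fin k) : Policy X k where
  prob reqs _ i := if i = f reqs then 1 else 0
  prob_nonneg _ _ _ := by split_ifs <;> norm_num
  prob_sum _ _ := by simp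

theorem sum_det (f : List X → Fin k) (reqs : List X) (past : List (Fin k)) (c : Fin k → X)
    (σ : List X) :
    ∑ j : Fin σ.length → Fin k, pathProb (detPolicy f) reqs past (σ.zip (List.ofFn j)) *
      pathCost c (σ.zip (List.ofFn j)) = dc f reqs c σ := by
  induction σ generalizing reqs past c with
  | nil => simp [pathProb, pathCost, dc]
  | cons r rest ih =>
    have := sum_ofFn_succ (k := k) (n := rest.length)
      fun j => pathProb (detPolicy f) reqs past ((r :: rest).zip (List.ofFn j)) *
        pathCost c ((r :: rest).zip (List.ofFn j))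
    refine this.trans ?_
    simp only [List.ofFn_succ, Fin.cons_zero, Fin.cons_succ, List.zip_cons_cons, pathProb,
      pathCost, mul_add, mul_assoc, Finset.sum_add_distrib, ← Finset.mul_sum, ← Finset.sum_mul,
      sum_pathProb, ih, one_mul, dc]
    simp [detPolicy]

theorem expCost_det (f : List X → Fin k) (s : Fin k → X) (σ : List X) :
    expCost (detPolicy f) s σ = dc f [] s σ := sum_det f [] [] s σ

theorem expCost_le_add (A : Policy X k) (s s' : Fin k → X) (σ : List X) :
    expCost A s σ ≤ expCost A s' σ + ∑ a, dist (s a) (s' a) := by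
  unfold expCost
  calc ∑ j : Fin σ.length → Fin k, pathProb A [] [] (σ.zip (List.ofFn j)) *
        pathCost s (σ.zip (List.ofFn j))
      ≤ ∑ j : Fin σ.length → Fin k, pathProb A [] [] (σ.zip (List.ofFn j)) *
        (pathCost s' (σ.zip (List.ofFn j)) + ∑ a, dist (s a) (s' a)) :=
        Finset.sum_le_sum fun j _ => mul_le_mul_of_nonneg_left (pathCost_le_add _ _ _)
          (pathProb_nonneg _ _ _ _)
    _ = _ := by
        simp only [mul_add, Finset.sum_add_distrib, ← Finset.sum_mul, sum_pathProb, one_mul]

omit [MetricSpace X] in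
theorem pathProb_append (A : Policy X k) (reqs : List X) (past : List (Fin k))
    (π π' : List (X × Fin k)) :
    pathProb A reqs past (π ++ π') = pathProb A reqs past π *
      pathProb A (reqs ++ π.map Prod.fst) (past ++ π.map Prod.snd) π' := by
  induction π generalizing reqs past with
  | nil => simp [pathProb]
  | cons a rest ih =>
    obtain ⟨r, i⟩ := a
    simp only [List.cons_append, pathProb, ih, List.map_cons, List.append_assoc, List.nil_append]
    ring

/-- the behavioural policy equivalent to the mixture `a A + b A'` -/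
noncomputable def mix (A A' : Policy X k) (a b : ℝ) (ha : 0 ≤ a) (hb : 0 ≤ b) : Policy X k where
  prob reqs past i :=
    if a * pathProb A [] [] (reqs.dropLast.zip past) +
        b * pathProb A' [] [] (reqs.dropLast.zip past) = 0 then A.prob reqs past i
    else (a * pathProb A [] [] (reqs.dropLast.zip past) * A.prob reqs past i +
        b * pathProb A' [] [] (reqs.dropLast.zip past) * A'.prob reqs past i) /
      (a * pathProb A [] [] (reqs.dropLast.zip past) +
        b * pathProb A' [] [] (reqs.dropLast.zip past))
  prob_nonneg reqs past i := by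
    have h1 := pathProb_nonneg A [] [] (reqs.dropLast.zip past)
    have h2 := pathProb_nonneg A' [] [] (reqs.dropLast.zip past)
    have h3 := A.prob_nonneg reqs past i
    have h4 := A'.prob_nonneg reqs past i
    split_ifs
    · exact h3
    · positivity
  prob_sum reqs past := by
    split_ifs with h
    · exact A.prob_sum _ _
    · rw [← Finset.sum_div, Finset.sum_add_distrib, ← Finset.mul_sum, ← Finset.mul_sum,
        A.prob_sum, A'.prob_sum, mul_one, mul_one, div_self h]

omit [MetricSpace X] in
theorem pathProb_mix (A A' : Policy X k) (a b : ℝ) (ha : 0 ≤ a) (hb : 0 ≤ b) (hab : a + b = 1)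
    (π : List (X × Fin k)) :
    pathProb (mix A A' a b ha hb) [] [] π = a * pathProb A [] [] π + b * pathProb A' [] [] π := by
  induction π using List.reverseRecOn with
  | nil => simp [pathProb, hab]
  | append_singleton π x ih =>
    obtain ⟨r, i⟩ := x
    rw [pathProb_append, pathProb_append, pathProb_append, ih]
    simp only [List.nil_append, pathProb, mul_one, mix, List.dropLast_concat, List.zip_map',
      Prod.mk.eta, List.map_id']
    have h1 := mul_nonneg ha (pathProb_nonneg A [] [] π)
    have h2 := mul_nonneg hb (pathProb_nonneg A' [] [] π)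
    split_ifs with h
    · have h3 : a * pathProb A [] [] π = 0 := by linarith
      have h4 : b * pathProb A' [] [] π = 0 := by linarith
      rw [← mul_assoc, ← mul_assoc, h3, h4]; ring
    · field_simp

theorem expCost_mix (A A' : Policy X k) (a b : ℝ) (ha : 0 ≤ a) (hb : 0 ≤ b) (hab : a + b = 1)
    (s : Fin k → X) (σ : List X) :
    expCost (mix A A' a b ha hb) s σ = a * expCost A s σ + b * expCost A' s σ := by
  unfold expCost
  simp only [pathProb_mix A A' a b ha hb hab, Finset.mul_sum, ← Finset.sum_add_distrib]
  exact Finset.sum_congr rfl fun j _ => by ring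

/-- minimax on a finite family of request lists -/
theorem minimax {F : Type*} [Fintype F] (s : Fin k → X) (σ : F → List X) (b : F → ℝ) (ε : ℝ)
    (hε : 0 < ε) (A₀ : Policy X k)
    (h : ∀ μ : F → ℝ, (∀ a, 0 ≤ μ a) → ∑ a, μ a = 1 →
      ∃ A : Policy X k, ∑ a, μ a * expCost A s (σ a) < ∑ a, μ a * b a + ε) :
    ∃ A : Policy X k, ∀ a, expCost A s (σ a) ≤ b a + ε := by
  classical
  by_contra hcon
  push Not at hcon
  set K : Set (F → ℝ) := Set.range fun A : Policy X k => fun a => expCost A s (σ a) - b a with hK
  set U : Set (F → ℝ) := Set.pi Set.univ fun _ => Set.Iio ε with hU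
  have hUc : Convex ℝ U := convex_pi fun _ _ => convex_Iio ε
  have hUo : IsOpen U := isOpen_set_pi Set.finite_univ fun _ _ => isOpen_Iio
  have hKc : Convex ℝ K := by
    rintro _ ⟨A, rfl⟩ _ ⟨A', rfl⟩ a c ha hc hac
    refine ⟨mix A A' a c ha hc, funext fun x => ?_⟩
    simp only [Pi.add_apply, Pi.smul_apply, smul_eq_mul, expCost_mix A A' a c ha hc hac]
    linear_combination (b x) * hac
  have hdisj : Disjoint U K := by
    rw [Set.disjoint_left]
    rintro x hx ⟨A, rfl⟩
    obtain ⟨a, ha⟩ := hcon A
    have := hx a (Set.mem_univ a)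
    simp only [Set.mem_Iio] at this
    linarith
  obtain ⟨φ, u, hφU, hφK⟩ := geometric_hahn_banach_open hUc hUo hKc hdisj
  set w : F → ℝ := fun a => φ (Pi.single a 1) with hw
  have hφ : ∀ x : F → ℝ, φ x = ∑ a, x a * w a := fun x => by
    conv_lhs => rw [← Finset.univ_sum_single x]
    rw [map_sum]
    refine Finset.sum_congr rfl fun a _ => ?_
    rw [show (Pi.single a (x a) : F → ℝ) = x a • Pi.single a (1 : ℝ) by
      rw [← Pi.single_smul]; simp]
    rw [map_smul, smul_eq_mul]
  have h0 : 0 < u := by
    have := hφU 0 fun a _ => hε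
    simpa using this
  have hw0 : ∀ a, 0 ≤ w a := fun a => by
    by_contra hneg
    push Not at hneg
    have := hφU (Pi.single a (u / w a)) fun a' _ => by
      have : u / w a < 0 := div_neg_of_pos_of_neg h0 hneg
      by_cases haa : a' = a
      · subst haa; simp only [Pi.single_eq_same, Set.mem_Iio]; linarith
      · simp only [Pi.single_eq_of_ne haa, Set.mem_Iio]; exact hε
    rw [show (Pi.single a (u / w a) : F → ℝ) = (u / w a) • Pi.single a (1 : ℝ) by
      rw [← Pi.single_smul]; simp, map_smul, smul_eq_mul] at this
    rw [div_mul_cancel₀ _ hneg.ne] at this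
    exact lt_irrefl _ this
  set W := ∑ a, w a with hW
  have hW0 : 0 < W := by
    rcases (Finset.sum_nonneg fun a (_ : a ∈ univ) => hw0 a).eq_or_lt with h1 | h1
    · exfalso
      have h2 : ∀ a, w a = 0 := fun a =>
        (Finset.sum_eq_zero_iff_of_nonneg fun a _ => hw0 a).1 h1.symm a (mem_univ a)
      have := hφK _ ⟨A₀, rfl⟩
      rw [hφ] at this
      simp only [h2, mul_zero, Finset.sum_const_zero] at this
      linarith
    · exact h1
  have hu : ε * W ≤ u := by
    refine le_of_forall_lt_imp_le_of_dense fun t ht => ?_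
    have h1 := hφU (fun _ => t / W) fun a _ => by
      simp only [Set.mem_Iio]; rw [div_lt_iff₀ hW0]; exact ht
    rw [hφ, ← Finset.mul_sum, ← hW, div_mul_cancel₀ _ hW0.ne'] at h1
    exact h1.le
  obtain ⟨A, hA⟩ := h (fun a => w a / W) (fun a => div_nonneg (hw0 a) hW0.le)
    (by rw [← Finset.sum_div, div_self hW0.ne'])
  have h2 := hφK _ ⟨A, rfl⟩
  rw [hφ] at h2
  have h3 : ∑ a, (expCost A s (σ a) - b a) * w a =
      W * (∑ a, w a / W * expCost A s (σ a) - ∑ a, w a / W * b a) := by
    rw [← Finset.sum_sub_distrib, Finset.mul_sum]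
    refine Finset.sum_congr rfl fun a _ => ?_
    field_simp
  rw [h3] at h2
  nlinarith

/-- a policy from a family of points of the simplex -/
def toPolicy (a : List X × List (Fin k) → stdSimplex ℝ (Fin k)) : Policy X k where
  prob reqs past i := (a (reqs, past)).1 i
  prob_nonneg reqs past i := (a (reqs, past)).2.1 i
  prob_sum reqs past := (a (reqs, past)).2.2

omit [MetricSpace X] in
theorem continuous_pathProb (reqs : List X) (past : List (Fin k)) (π : List (X × Fin k)) :
    Continuous fun a : List X × List (Fin k) → stdSimplex ℝ (Fin k) =>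
      pathProb (toPolicy a) reqs past π := by
  induction π generalizing reqs past with
  | nil => simp only [pathProb]; exact continuous_const
  | cons x rest ih =>
    obtain ⟨r, i⟩ := x
    simp only [pathProb]
    refine Continuous.mul ?_ (ih _ _)
    simp only [toPolicy]
    exact (continuous_apply i).comp (continuous_subtype_val.comp (continuous_apply _))

/-- compactness: finitely many approximate constraints suffice -/
theorem compactness {ι : Type*} (s : Fin k → X) (σ : ι → List X) (b : ι → ℝ)
    (h : ∀ (u : Finset ι) (ε : ℝ), 0 < ε → ∃ A : Policy X k, ∀ a ∈ u, expCost A s (σ a) ≤ b a + ε) :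
    ∃ A : Policy X k, ∀ a, expCost A s (σ a) ≤ b a := by
  classical
  have hc : IsCompact (Set.univ : Set (List X × List (Fin k) → stdSimplex ℝ (Fin k))) :=
    isCompact_univ
  obtain ⟨x, -, hx⟩ := hc.inter_iInter_nonempty
    (fun q : ι × ℕ => {x | expCost (toPolicy x) s (σ q.1) ≤ b q.1 + 1 / ((q.2 : ℝ) + 1)})
    (fun q => isClosed_le (by
      unfold expCost
      exact continuous_finsetSum _ fun j _ => (continuous_pathProb _ _ _).mul continuous_const)
      continuous_const)
    (fun u => by
      obtain ⟨A, hA⟩ := h (u.image Prod.fst) (1 / (((u.sup Prod.snd : ℕ) : ℝ) + 1)) (by positivity)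
      refine ⟨fun q => ⟨A.prob q.1 q.2, A.prob_nonneg q.1 q.2, A.prob_sum q.1 q.2⟩,
        Set.mem_univ _, ?_⟩
      simp only [Set.mem_iInter, Set.mem_ofPred_eq]
      intro q hq
      have h1 := hA q.1 (Finset.mem_image_of_mem _ hq)
      have h2 : (q.2 : ℝ) ≤ ((u.sup Prod.snd : ℕ) : ℝ) := by
        exact_mod_cast Finset.le_sup (f := Prod.snd) hq
      have h3 : 1 / (((u.sup Prod.snd : ℕ) : ℝ) + 1) ≤ 1 / ((q.2 : ℝ) + 1) :=
        one_div_le_one_div_of_le (by positivity) (by linarith)
      exact h1.trans (by linarith))
  refine ⟨toPolicy x, fun a => le_of_forall_pos_le_add fun ε hε => ?_⟩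
  obtain ⟨n, hn⟩ := exists_nat_one_div_lt hε
  have := Set.mem_iInter.1 hx (a, n)
  simp only [Set.mem_ofPred_eq] at this
  linarith

end Crest.Agent.KS
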