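import Crest.Agent.KS.Reset
import Crest.Agent.KS.Mix

/-! The reduction of the competitive bound (S0486) to the Bayesian bound `Bayes`. -/

namespace Crest.Agent.KS
open Crest.LogicCS.KServer Finset

theorem dc_map {X Y : Type*} [MetricSpace X] [MetricSpace Y] {k : ℕ} (e : Y → X) (φ : X → Y)
    (he : ∀ a b, dist (e a) (e b) = dist a b) (hφ : ∀ y, φ (e y) = y) (f : List Y → Fin k)
    (past : List Y) (c : Fin k → Y) (l : List Y) :
    dc (fun l => f (l.map φ)) (past.map e) (e ∘ c) (l.map e) = dc f past c l := by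
  induction l generalizing past c with
  | nil => simp [dc]
  | cons r rest ih =>
    have h1 : (past.map e ++ [e r]).map φ = past ++ [r] := by
      simp [Function.comp_def, hφ]
    have h2 : past.map e ++ [e r] = (past ++ [r]).map e := by simp
    simp only [List.map_cons, dc, h1, Function.comp_apply, he]
    rw [← Function.comp_update, h2, ih]

theorem pathCost_map {X Y : Type*} [MetricSpace X] [MetricSpace Y] {k : ℕ} (e : Y → X)
    (he : ∀ a b, dist (e a) (e b) = dist a b) (c : Fin k → Y) (π : List (Y × Fin k)) :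
    pathCost (e ∘ c) (π.map fun q => (e q.1, q.2)) = pathCost c π := by
  induction π generalizing c with
  | nil => simp [pathCost]
  | cons x rest ih =>
    obtain ⟨r, i⟩ := x
    simp only [List.map_cons, pathCost, Function.comp_apply, he]
    rw [← Function.comp_update, ih]

/-- the Bayesian bound without additive constant on an arbitrary metric space -/
theorem bayes_any {k : ℕ} {ρ : ℝ} (hk : 0 < k) (hρ : 0 ≤ ρ) (hB : Bayes k ρ) (X : Type*)
    [MetricSpace X] (hX : Nonempty (Fin (k + 1) ↪ X)) (s : Fin k → X)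
    (hs : Function.Injective s) (F : Type*) [Fintype F] (μ : F → ℝ) (hμ0 : ∀ a, 0 ≤ μ a)
    (hμ : ∑ a, μ a = 1) (π : F → List (X × Fin k)) (ε : ℝ) (hε : 0 < ε) :
    ∃ f : List X → Fin k, ∑ a, μ a * dc f [] s ((π a).map Prod.fst) ≤
      2 * ρ * ∑ a, μ a * pathCost s (π a) + ε := by
  classical
  obtain ⟨g⟩ := hX
  set S : Finset X := univ.image s ∪ univ.image g ∪
    univ.biUnion fun a => ((π a).map Prod.fst).toFinset with hS
  have hsS : ∀ i, s i ∈ S := fun i => by simp [hS]
  have hgS : ∀ i, g i ∈ S := fun i => by simp [hS]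
  have hπS : ∀ a, ∀ q ∈ π a, q.1 ∈ S := fun a q hq => by
    simp only [hS, mem_union, mem_biUnion, mem_univ, true_and, List.mem_toFinset, List.mem_map]
    exact Or.inr ⟨a, q, hq, rfl⟩
  set n := Fintype.card S
  let η : S ≃ Fin n := Fintype.equivFin S
  let e : Fin n → X := fun y => (η.symm y : X)
  have heinj : Function.Injective e := fun a b h => η.symm.injective (Subtype.ext h)
  let φ : X → Fin n := fun x => if h : x ∈ S then η ⟨x, h⟩ else η ⟨g 0, hgS 0⟩
  have hφ : ∀ y, φ (e y) = y := fun y => by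
    simp only [φ, e, (η.symm y).2, dif_pos, Subtype.coe_eta, Equiv.apply_symm_apply]
  have heφ : ∀ x ∈ S, e (φ x) = x := fun x hx => by
    simp only [φ, e, hx, dif_pos, Equiv.symm_apply_apply]
  let _ : MetricSpace (Fin n) := MetricSpace.induced e heinj inferInstance
  have he : ∀ a b : Fin n, dist (e a) (e b) = dist a b := fun a b => rfl
  let θ : F ≃ Fin (Fintype.card F) := Fintype.equivFin F
  obtain ⟨f, hf⟩ := bayes_reset hk hρ hB (Fin n)
    ⟨⟨fun i => φ (g i), fun a b h => g.injective (by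
      rw [← heφ _ (hgS a), ← heφ _ (hgS b)]; exact congrArg e h)⟩⟩
    (fun i => φ (s i)) (fun a b h => hs (by
      rw [← heφ _ (hsS a), ← heφ _ (hsS b)]; exact congrArg e h))
    (Fin (Fintype.card F)) (fun a => μ (θ.symm a)) (fun a => hμ0 _)
    (by rw [θ.symm.sum_comp μ, hμ])
    (fun a => (π (θ.symm a)).map fun q => (φ q.1, q.2)) ε hε
  refine ⟨fun l => f (l.map φ), ?_⟩
  have hes : e ∘ (fun i => φ (s i)) = s := funext fun i => heφ _ (hsS i)
  have h1 : ∀ a, dc f [] (fun i => φ (s i)) (((π a).map fun q => (φ q.1, q.2)).map Prod.fst) =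
      dc (fun l => f (l.map φ)) [] s ((π a).map Prod.fst) := fun a => by
    rw [← dc_map e φ he hφ f, hes]
    congr 1
    simp only [List.map_map]
    exact List.map_congr_left fun q hq => heφ _ (hπS a q hq)
  have h2 : ∀ a, pathCost (fun i => φ (s i)) ((π a).map fun q => (φ q.1, q.2)) =
      pathCost s (π a) := fun a => by
    rw [← pathCost_map e he, hes]
    congr 1
    simp only [List.map_map]
    conv_rhs => rw [← List.map_id (π a)]
    exact List.map_congr_left fun q hq => by
      simp only [Function.comp_apply, heφ _ (hπS a q hq), id]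
  simp only [h1, h2] at hf
  rw [θ.symm.sum_comp fun a => μ a * dc (fun l => f (l.map φ)) [] s ((π a).map Prod.fst),
    θ.symm.sum_comp fun a => μ a * pathCost s (π a)] at hf
  exact hf

/-- competitive policy from an injective start -/
theorem policy_inj {k : ℕ} {ρ : ℝ} (hk : 0 < k) (hρ : 0 ≤ ρ) (hB : Bayes k ρ) (X : Type*)
    [MetricSpace X] (hX : Nonempty (Fin (k + 1) ↪ X)) (s : Fin k → X)
    (hs : Function.Injective s) :
    ∃ A : Policy X k, ∀ π : List (X × Fin k),
      expCost A s (π.map Prod.fst) ≤ 2 * ρ * pathCost s π := by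
  classical
  refine compactness s (fun π : List (X × Fin k) => π.map Prod.fst)
    (fun π => 2 * ρ * pathCost s π) fun u ε hε => ?_
  obtain ⟨A, hA⟩ := minimax (F := u) s (fun a => a.1.map Prod.fst)
    (fun a => 2 * ρ * pathCost s a.1) ε hε (detPolicy fun _ => ⟨0, hk⟩) fun μ hμ0 hμ => by
      obtain ⟨f, hf⟩ := bayes_any hk hρ hB X hX s hs u μ hμ0 hμ (fun a => a.1) (ε / 2) (by linarith)
      refine ⟨detPolicy f, ?_⟩
      simp only [expCost_det]
      have : ∑ a : u, μ a * (2 * ρ * pathCost s a.1) = 2 * ρ * ∑ a : u, μ a * pathCost s a.1 := by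
        rw [Finset.mul_sum]; exact Finset.sum_congr rfl fun a _ => by ring
      rw [this]; linarith
  exact ⟨A, fun a ha => hA ⟨a, ha⟩⟩

theorem Bayes.mono {k : ℕ} {ρ ρ' : ℝ} (h : Bayes k ρ) (hρ : ρ ≤ ρ') : Bayes k ρ' := by
  intro X _ _ hX s hs
  obtain ⟨B, hB⟩ := h X hX s hs
  refine ⟨B, fun T Ω _ p hp hp1 σ j => ?_⟩
  obtain ⟨cfg, h1, h2⟩ := hB T Ω p hp hp1 σ j
  refine ⟨cfg, h1, h2.trans ?_⟩
  have : 0 ≤ ∑ ω, p ω * optCost s (σ ω) (j ω) T :=
    Finset.sum_nonneg fun ω _ => mul_nonneg (hp ω) (Finset.sum_nonneg fun _ _ => dist_nonneg)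
  nlinarith

/-- **Reduction**: the Bayesian bound implies the statement S0486. -/
theorem red (h : ∃ C : ℝ, ∀ k : ℕ, 2 ≤ k → Bayes k (C * Real.log (k + 1) ^ 2)) :
    ∃ C : ℝ, ∀ (k : ℕ), 2 ≤ k → ∀ (X : Type*) [MetricSpace X], Nonempty (Fin (k + 1) ↪ X) →
      ∀ s : Fin k → X, ∃ (A : Policy X k) (B : ℝ), 0 ≤ B ∧ (Function.Injective s → B = 0) ∧
        ∀ (σ : List X) (j : Fin σ.length → Fin k), expCost A s σ ≤
          C * Real.log (k + 1) ^ 2 * pathCost s (σ.zip (List.ofFn j)) + B := by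
  classical
  obtain ⟨C, hC⟩ := h
  refine ⟨2 * max C 0, fun k hk X _ hX s => ?_⟩
  set ρ := max C 0 * Real.log (k + 1) ^ 2 with hρ
  have hρ0 : 0 ≤ ρ := mul_nonneg (le_max_right _ _) (sq_nonneg _)
  have hB : Bayes k ρ := (hC k hk).mono
    (mul_le_mul_of_nonneg_right (le_max_left _ _) (sq_nonneg _))
  have hfst : ∀ (σ : List X) (j : Fin σ.length → Fin k),
      (σ.zip (List.ofFn j)).map Prod.fst = σ := fun σ j => List.map_fst_zip (by simp)
  have hcoef : 2 * max C 0 * Real.log (k + 1) ^ 2 = 2 * ρ := by rw [hρ]; ring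
  rw [hcoef]
  by_cases hs : Function.Injective s
  · obtain ⟨A, hA⟩ := policy_inj (by omega) hρ0 hB X hX s hs
    refine ⟨A, 0, le_rfl, fun _ => rfl, fun σ j => ?_⟩
    have := hA (σ.zip (List.ofFn j))
    rw [hfst] at this
    linarith
  · obtain ⟨g⟩ := id hX
    obtain ⟨A, hA⟩ := policy_inj (by omega) hρ0 hB X hX (fun i => g i.castSucc)
      (fun a b h => Fin.castSucc_injective _ (g.injective h))
    set Δ := ∑ a, dist (s a) (g a.castSucc) with hΔ
    have hΔ0 : 0 ≤ Δ := Finset.sum_nonneg fun _ _ => dist_nonneg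
    refine ⟨A, (2 * ρ + 1) * Δ, by positivity, fun h => absurd h hs, fun σ j => ?_⟩
    have h1 := hA (σ.zip (List.ofFn j))
    rw [hfst] at h1
    have h2 := expCost_le_add A s (fun i => g i.castSucc) σ
    have h3 := pathCost_le_add (fun i => g i.castSucc) s (σ.zip (List.ofFn j))
    simp only [dist_comm (g _)] at h3
    rw [← hΔ] at h2 h3
    nlinarith

end Crest.Agent.KS
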