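import Crest.Agent.KS.PartP
import Crest.Agent.KS.Red
import Crest.Agent.R314H.H

/-! Row 314: everything but the dynamic embedding. -/

set_option autoImplicit false
open Crest.LogicCS.KServer
open Crest Crest.LogicCS

namespace Crest.Agent.KS

theorem S0486_of_E (hE : EStmt) : ∃ C : ℝ, ∀ (k : ℕ), 2 ≤ k → ∀ (X : Type*) [MetricSpace X], Nonempty (Fin (k + 1) ↪ X) → ∀ s : Fin k → X, ∃ (A : Policy X k) (B : ℝ), 0 ≤ B ∧ (Function.Injective s → B = 0) ∧ ∀ (σ : List X) (j : Fin σ.length → Fin k), expCost A s σ ≤ C * Real.log (k + 1) ^ 2 * pathCost s (σ.zip (List.ofFn j)) + B :=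
  red (P_proof H.H_proof hE)

end Crest.Agent.KS
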