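import Crest.Agent.KS.DefsP
import Crest.Agent.KS.Bay

/-! Row 314: the glue between the dynamic embedding and the algorithm on the tree. -/

set_option autoImplicit false

namespace Crest.Agent.KS

open Finset
open scoped Classical NNReal

theorem step_cost {X : Type} [MetricSpace X] {k : ℕ} (s : Fin k → X) (σ : ℕ → X) (j : ℕ → Fin k)
    (t : ℕ) : ∑ i, dist (optCfg s σ j t i) (optCfg s σ j (t + 1) i) =
      dist (optCfg s σ j t (j t)) (σ t) := by
  rw [sum_eq_single (j t)]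
  · simp [optCfg]
  · intro i _ hi
    simp [optCfg, Function.update_of_ne hi]
  · simp

theorem exists_lam (X : Type) [MetricSpace X] [Fintype X] :
    ∃ lam : ℝ, 0 < lam ∧ ∀ x y : X, x ≠ y → lam ≤ dist x y := by
  by_cases h : (univ.filter (fun p : X × X => p.1 ≠ p.2)).Nonempty
  · obtain ⟨p, hp, hm⟩ := exists_min_image _ (fun p : X × X => dist p.1 p.2) h
    exact ⟨dist p.1 p.2, dist_pos.2 (mem_filter.1 hp).2,
      fun x y hxy => hm (x, y) (mem_filter.2 ⟨mem_univ _, hxy⟩)⟩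
  · exact ⟨1, one_pos, fun x y hxy => absurd ⟨(x, y), mem_filter.2 ⟨mem_univ _, hxy⟩⟩ h⟩

theorem exists_J (X : Type) [MetricSpace X] [Fintype X] {lam τ : ℝ} (hl : 0 < lam) (hτ : 16 ≤ τ) :
    ∃ J : ℕ, ∀ x y : X, dist x y ≤ lam * τ ^ J := by
  obtain ⟨J, hJ⟩ := pow_unbounded_of_one_lt ((∑ p : X × X, dist p.1 p.2) / lam)
    (show (1 : ℝ) < τ by linarith)
  refine ⟨J, fun x y => ?_⟩
  have h1 : dist x y ≤ ∑ p : X × X, dist p.1 p.2 :=
    single_le_sum (f := fun p : X × X => dist p.1 p.2) (fun _ _ => dist_nonneg) (mem_univ (x, y))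
  rw [div_lt_iff₀ hl] at hJ
  nlinarith

theorem dist_kur_le {X : Type} [MetricSpace X] [Fintype X] (x y : X) :
    dist (kur x) (kur y) ≤ dist x y := by
  refine (dist_pi_le_iff dist_nonneg).2 fun z => ?_
  simpa [kur, Real.dist_eq] using abs_dist_sub_le x y z

/-- the path of labels of a point -/
def pth {Lab X : Type} (lab : ℕ → X → Lab) (x : X) : ℕ → Lab ⊕ X
  | 0 => Sum.inr x
  | l + 1 => Sum.inl (lab l x)

/-- the anchor of a label -/
noncomputable def anch {Lab X : Type} [MetricSpace X] (anc : ℕ → Lab → X → ℝ) (l : ℕ) :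
    Lab ⊕ X → X → ℝ
  | Sum.inr x => kur x
  | Sum.inl a => anc (l - 1) a

/-- the shift of the anchor of a label -/
noncomputable def sh {Lab X : Type} [Fintype X] (lab : ℕ → X → Lab) (anc anc' : ℕ → Lab → X → ℝ) :
    ℕ → Lab ⊕ X → ℝ≥0
  | l + 1, Sum.inl a => if ∃ x', lab l x' = a then nndist (anc l a) (anc' l a) else 0
  | _, _ => 0

section

variable {Lab X V : Type} [MetricSpace X] [Fintype X] [Fintype V] {J : ℕ}
  (G : LabTree (Lab ⊕ X) (J + 1) V)

/-- the anchor of a node -/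
noncomputable def aV (x₀ : X) (anc : ℕ → Lab → X → ℝ) (v : V) : X → ℝ :=
  if v = G.T.root then kur x₀ else anch anc (G.lev v) (G.lbl v (G.lev v))

/-- the largest shift above a node -/
noncomputable def mV (lab : ℕ → X → Lab) (anc anc' : ℕ → Lab → X → ℝ) (v : V) : ℝ≥0 :=
  ((range (J + 1)).filter (fun l => G.lev v ≤ l)).sup (fun l => sh lab anc anc' l (G.lbl v l))

omit [MetricSpace X] [Fintype X] in
theorem lbl_node (i : ℕ) (f : ℕ → Lab ⊕ X) (hi : i ≤ J + 1) (l : ℕ) (h1 : i ≤ l) (h2 : l < J + 1) :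
    G.lbl (G.node i f) l = f l := by
  have h := G.node_lbl (G.node i f)
  rw [G.lev_node i f hi] at h
  exact (G.node_eq i _ _ hi).1 h l h1 h2

theorem aV_near {lam τ : ℝ} (hl : 0 < lam) (hτ : 16 ≤ τ) (x₀ x : X) (lab : ℕ → X → Lab)
    (anc : ℕ → Lab → X → ℝ) (hd : ∀ x y : X, dist x y ≤ lam * τ ^ J)
    (hn : ∀ l, l < J → dist (anc l (lab l x)) (kur x) ≤ 2 * (lam * τ ^ l)) (i : ℕ)
    (hi : i ≤ J + 1) :
    dist (aV G x₀ anc (G.node i (pth lab x))) (kur x) ≤ 2 * (lam / τ * τ ^ i) := by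
  have hτ0 : 0 < τ := by linarith
  have hlev := G.lev_node i (pth lab x) hi
  unfold aV
  split_ifs with hr
  · have : i = J + 1 := by rw [← hlev]; exact (G.lev_root _).2 hr
    subst this
    have h1 : lam / τ * τ ^ (J + 1) = lam * τ ^ J := by field_simp; ring
    have h2 := (dist_kur_le x₀ x).trans (hd x₀ x)
    have h3 : 0 < lam * τ ^ J := by positivity
    rw [h1]; linarith
  · have hlt : i < J + 1 := lt_of_le_of_ne hi fun h => hr ((G.lev_root _).1 (hlev.trans h))
    rw [hlev, lbl_node G i _ hi i le_rfl hlt]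
    cases i with
    | zero =>
      simp only [pth, anch, dist_self]
      positivity
    | succ l =>
      have h1 : lam / τ * τ ^ (l + 1) = lam * τ ^ l := by field_simp; ring
      simp only [pth, anch, Nat.add_sub_cancel]
      rw [h1]
      exact hn l (by omega)

theorem aV_edge {lam τ : ℝ} (hl : 0 < lam) (hτ : 16 ≤ τ) (x₀ x : X) (lab : ℕ → X → Lab)
    (anc : ℕ → Lab → X → ℝ) (hd : ∀ x y : X, dist x y ≤ lam * τ ^ J)
    (hn : ∀ l, l < J → dist (anc l (lab l x)) (kur x) ≤ 2 * (lam * τ ^ l)) (v : V)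
    (hv : v ≠ G.T.root) (hx : v = G.node (G.lev v) (pth lab x)) :
    dist (aV G x₀ anc v) (aV G x₀ anc (G.T.par v)) ≤ 4 * τ * (lam / τ * τ ^ G.lev v) := by
  have hτ0 : 0 < τ := by linarith
  have hlt : G.lev v < J + 1 := lt_of_le_of_ne (G.lev_le v) fun h => hv ((G.lev_root _).1 h)
  have hp : G.T.par v = G.node (G.lev v + 1) (pth lab x) := by
    conv_lhs => rw [hx]
    exact G.par_node _ _ hlt
  have h1 := aV_near G hl hτ x₀ x lab anc hd hn (G.lev v) hlt.le
  have h2 := aV_near G hl hτ x₀ x lab anc hd hn (G.lev v + 1) hlt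
  rw [← hx] at h1
  rw [← hp, pow_succ, ← mul_assoc (lam / τ)] at h2
  have h3 : 0 < lam / τ * τ ^ G.lev v := by positivity
  have h4 := dist_triangle_right (aV G x₀ anc v) (aV G x₀ anc (G.T.par v)) (kur x)
  nlinarith

theorem aV_shift (x₀ x : X) (lab : ℕ → X → Lab) (anc anc' : ℕ → Lab → X → ℝ) (v : V)
    (hx : v = G.node (G.lev v) (pth lab x)) :
    dist (aV G x₀ anc v) (aV G x₀ anc' v) ≤ mV G lab anc anc' v := by
  unfold aV
  split_ifs with hv
  · simp
  · have hlt : G.lev v < J + 1 := lt_of_le_of_ne (G.lev_le v) fun h => hv ((G.lev_root _).1 h)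
    have h1 : G.lbl v (G.lev v) = pth lab x (G.lev v) := by
      conv_lhs => rw [hx]
      rw [G.lev_node _ _ hlt.le]
      exact lbl_node G _ _ hlt.le _ le_rfl hlt
    have h2 : sh lab anc anc' (G.lev v) (G.lbl v (G.lev v)) ≤ mV G lab anc anc' v :=
      le_sup (f := fun l => sh lab anc anc' l (G.lbl v l))
        (mem_filter.2 ⟨mem_range.2 hlt, le_rfl⟩)
    rw [h1] at h2 ⊢
    generalize G.lev v = i at h2 ⊢
    cases i with
    | zero => simp [pth, anch]
    | succ l =>
      simp only [pth, anch, Nat.add_sub_cancel, sh] at h2 ⊢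
      rw [if_pos ⟨x, rfl⟩] at h2
      exact_mod_cast h2

omit [MetricSpace X] in
theorem mV_root (lab : ℕ → X → Lab) (anc anc' : ℕ → Lab → X → ℝ) :
    mV G lab anc anc' G.T.root = 0 := by
  unfold mV
  rw [(G.lev_root _).2 rfl, filter_false_of_mem]
  · rfl
  · intro l hl
    have := mem_range.1 hl
    omega

omit [MetricSpace X] in
theorem mV_par (lab : ℕ → X → Lab) (anc anc' : ℕ → Lab → X → ℝ) (v : V) :
    mV G lab anc anc' (G.T.par v) ≤ mV G lab anc anc' v := by
  by_cases hv : v = G.T.root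
  · rw [hv, G.T.par_root]
  have hlt : G.lev v < J + 1 := lt_of_le_of_ne (G.lev_le v) fun h => hv ((G.lev_root _).1 h)
  have hp : G.T.par v = G.node (G.lev v + 1) (G.lbl v) := by
    conv_lhs => rw [← G.node_lbl v]
    exact G.par_node _ _ hlt
  unfold mV
  refine Finset.sup_le fun l hl => ?_
  obtain ⟨h1, h2⟩ := mem_filter.1 hl
  rw [G.lev_par v hv] at h2
  have h3 : G.lbl (G.T.par v) l = G.lbl v l := by
    rw [hp]; exact lbl_node G _ _ hlt l h2 (mem_range.1 h1)
  rw [h3]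
  exact le_sup (f := fun l => sh lab anc anc' l (G.lbl v l)) (mem_filter.2 ⟨h1, by omega⟩)

omit [MetricSpace X] in
theorem mV_leaf (x : X) (lab lab' : ℕ → X → Lab) (anc anc' : ℕ → Lab → X → ℝ) (g : ℝ) (hg : 0 ≤ g)
    (h : ∀ l x', l < J → lab l x' = lab' l x → dist (anc l (lab' l x)) (anc' l (lab' l x)) ≤ g) :
    (mV G lab anc anc' (G.node 0 (pth lab' x)) : ℝ) ≤ g := by
  have : mV G lab anc anc' (G.node 0 (pth lab' x)) ≤ ⟨g, hg⟩ := by
    unfold mV
    refine Finset.sup_le fun l hl => ?_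
    have h1 := mem_range.1 (mem_filter.1 hl).1
    rw [lbl_node G 0 _ (by omega) l (by omega) h1]
    cases l with
    | zero => simp [sh]
    | succ l =>
      simp only [pth, sh]
      split_ifs with hx
      · obtain ⟨x', hx'⟩ := hx
        exact_mod_cast h l x' (by omega) hx'
      · exact zero_le
  exact_mod_cast this

omit [Fintype X] in
theorem pth_cost {lam τ : ℝ} (hl : 0 < lam) (hτ : 16 ≤ τ) (hm : ∀ x y : X, x ≠ y → lam ≤ dist x y)
    (lab lab' : ℕ → X → Lab) (x x' : X) :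
    ∑ l ∈ range (J + 1), (if pth lab x l = pth lab' x' l then 0 else lam / τ * τ ^ l) ≤
      dist x x' + ∑ l ∈ range J, if lab l x = lab' l x' then 0 else lam * τ ^ l := by
  have hτ0 : 0 < τ := by linarith
  rw [sum_range_succ', add_comm]
  refine add_le_add ?_ (le_of_eq (sum_congr rfl fun l _ => ?_))
  · split_ifs with h
    · exact dist_nonneg
    · have hx : x ≠ x' := fun e => h (by simp [pth, e])
      have h1 : lam / τ ≤ lam := div_le_self hl.le (by linarith)
      simpa using h1.trans (hm x x' hx)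
  · have h1 : lam / τ * τ ^ (l + 1) = lam * τ ^ l := by field_simp; ring
    simp [pth, h1]

end

theorem GLUE_proof (hE : EStmt) (hPhy : PhyStmt) (hLab : LabStmt) (hMvq : MvqStmt) : GlueStmt := by
  obtain ⟨CE, τ, hCE, hτ, hE⟩ := hE
  obtain ⟨CP, hCP, hP⟩ := hPhy
  have hτ0 : 0 < τ := by linarith
  refine ⟨CP * (4 * τ) * 4 * (1 + CE) + 2 * CE, fun k hk X _ _ hX s => ?_⟩
  obtain ⟨lam, hl, hm⟩ := exists_lam X
  obtain ⟨J, hd⟩ := exists_J X hl hτ
  obtain ⟨B, hB⟩ := hE k hk X lam J hl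
  obtain ⟨e⟩ := hX
  set x₀ : X := e 0
  set L := Real.log (k + 1) with hL
  have hL1 : 1 ≤ L := by
    have h3 : (3 : ℝ) ≤ k + 1 := by exact_mod_cast (by omega : 3 ≤ k + 1)
    have : Real.exp 1 ≤ k + 1 := by linarith [Real.exp_one_lt_d9]
    exact (Real.le_log_iff_exp_le (by linarith)).2 this
  refine ⟨CP * (4 * τ) * L * (4 * B + k * (lam / τ * τ ^ (J + 1))) + 2 * B + 4 * τ,
    fun n Ω _ P σ j hσ => ?_⟩
  obtain ⟨Lab, _, lab, anc, g, hlab, hanc, hnear, hg, hsh, hcost⟩ := hB s n Ω P σ j hσ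
  haveI : Nonempty (Lab ⊕ X) := ⟨Sum.inr x₀⟩
  obtain ⟨V, _, ⟨G⟩⟩ := hLab (Lab ⊕ X) (J + 1)
  set o : ℕ → Ω → Fin k → X := fun t ω => optCfg s (σ ω) (j ω) t with ho
  set q : ℕ → Ω → Fin k → V := fun t ω i => G.node 0 (pth (lab t ω) (o t ω i)) with hq
  have hlive : ∀ t ω v, Live G.T P q t ω v → ∃ x, v = G.node (G.lev v) (pth (lab t ω) x) := by
    rintro t ω v ⟨b, hb, i, hi⟩
    refine ⟨o t b i, ?_⟩
    rw [hlab t ω b hb]
    exact (G.anc_node v _).1 hi
  have hwt : G.T.Wt τ (fun v => lam / τ * τ ^ G.lev v) :=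
    ⟨fun v => by positivity, fun v hv => by simp only [G.lev_par v hv]; ring⟩
  obtain ⟨c, hc1, hc2, hc3⟩ := hP k hk V G.T τ _ hτ hwt n Ω P q (X → ℝ)
    (fun t ω => aV G x₀ (anc t ω)) (fun t ω v => mV G (lab t ω) (anc t ω) (anc (t + 1) ω) v)
    (4 * τ) (fun t ω => G.node 0 (pth (lab (t + 1) ω) (σ ω t))) (by positivity)
    (fun t a b hab => by simp only [hanc t a b hab])
    (fun t a b hab => by
      simp only [hanc (t + 1) a b hab, hanc t a b (P.mono t a b hab), hlab t a b (P.mono t a b hab)])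
    (fun t ω v hv hl' => by
      obtain ⟨x, hx⟩ := hlive t ω v hl'
      exact aV_edge G hl hτ x₀ x _ _ hd (fun l h => hnear t ω l x h) v hv hx)
    (fun t ω => by simp only [mV_root, NNReal.coe_zero])
    (fun t ω v => by exact_mod_cast mV_par G _ _ _ v)
    (fun t ω v h1 _ => by
      obtain ⟨x, hx⟩ := hlive t ω v h1
      exact aV_shift G x₀ x _ _ _ v hx)
    (fun t ω => by
      refine ⟨?_, fun b hb => ⟨j b t, ?_⟩⟩
      · refine eq_empty_of_forall_notMem fun v hv => ?_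
        obtain ⟨h1, h2⟩ := (mem_filter.1 hv).2
        have h3 := G.lev_par v h1
        rw [h2, G.lev_node 0 _ (by omega)] at h3
        omega
      · have h1 := (hσ (t + 1) ω b).1 hb
        rw [pre_succ, pre_succ] at h1
        have h2 : σ ω t = σ b t := by simpa using (List.append_inj' h1 rfl).2
        simp only [hq, ho, optCfg, Function.update_self, hlab (t + 1) ω b hb, h2])
  refine ⟨c, hc1, fun t ω => ?_, hc3.trans ?_⟩
  · obtain ⟨i, hi⟩ := hc2 t ω
    refine ⟨i, hi.trans ?_⟩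
    have h0 := G.lev_node 0 (pth (lab (t + 1) ω) (σ ω t)) (by omega)
    have h1 : G.node 0 (pth (lab (t + 1) ω) (σ ω t)) ≠ G.T.root := fun h => by
      have := (G.lev_root _).2 h
      omega
    simp only [aV, if_neg h1, h0]
    rw [lbl_node G 0 _ (by omega) 0 le_rfl (by omega)]
    rfl
  · set A : Ω → ℝ := fun ω => ∑ t ∈ range n, ∑ i : Fin k, ∑ l ∈ range J,
      if lab t ω l (o t ω i) = lab (t + 1) ω l (o (t + 1) ω i) then 0 else lam * τ ^ l with hA
    set Gm : Ω → ℝ := fun ω => ∑ t ∈ range n, ∑ i : Fin k, g t ω (o (t + 1) ω i) with hGm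
    set O := P.Ex (fun ω => optCost s (σ ω) (j ω) n) with hO
    have hA0 : 0 ≤ P.Ex A := by
      rw [← P.ex_const 0]
      refine P.ex_mono fun ω => sum_nonneg fun t _ => sum_nonneg fun i _ => sum_nonneg fun l _ => ?_
      split_ifs
      · exact le_rfl
      · positivity
    have hG0 : 0 ≤ P.Ex Gm := by
      rw [← P.ex_const 0]
      exact P.ex_mono fun ω => sum_nonneg fun t _ => sum_nonneg fun i _ => hg _ _ _
    have hO0 : 0 ≤ O := by
      rw [← P.ex_const 0]
      exact P.ex_mono fun ω => sum_nonneg fun t _ => dist_nonneg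
    have hAG : P.Ex A + P.Ex Gm ≤ CE * L * O + B := by
      rw [← P.ex_add]
      refine le_of_eq_of_le ?_ hcost
      congr 1
      funext ω
      simp only [hA, hGm, ho, sum_add_distrib]
    have h1 : P.Ex (fun ω => ∑ t ∈ range n, G.T.mv (fun v => lam / τ * τ ^ G.lev v)
        (fun v => (G.T.cnt (q t ω) v : ℝ)) (fun v => (G.T.cnt (q (t + 1) ω) v : ℝ))) ≤
        4 * (O + P.Ex A) := by
      rw [hO, ← P.ex_add, ← P.ex_mul]
      refine P.ex_mono fun ω => ?_
      simp only [optCost, hA, ← sum_add_distrib, mul_sum (range n)]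
      refine sum_le_sum fun t _ => ?_
      refine (hMvq _ _ V G (lam / τ) τ (by positivity) (by linarith) k
        (fun i => pth (lab t ω) (o t ω i)) (fun i => pth (lab (t + 1) ω) (o (t + 1) ω i))).trans ?_
      rw [← step_cost, ← sum_add_distrib]
      exact mul_le_mul_of_nonneg_left
        (sum_le_sum fun i _ => by
          refine le_of_eq_of_le (sum_congr rfl fun l _ => ?_)
            (pth_cost (J := J) hl hτ hm (lab t ω) (lab (t + 1) ω) (o t ω i) (o (t + 1) ω i))
          congr)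
        (by norm_num)
    have h2 : P.Ex (fun ω => ∑ t ∈ range n, ∑ i,
        (mV G (lab t ω) (anc t ω) (anc (t + 1) ω) (q (t + 1) ω i) : ℝ)) ≤ P.Ex Gm :=
      P.ex_mono fun ω => sum_le_sum fun t _ => sum_le_sum fun i _ =>
        mV_leaf G _ _ _ _ _ _ (hg _ _ _) fun l x' h h' => hsh t ω l _ x' h h'
    rw [(G.lev_root _).2 rfl]
    have hK : 0 ≤ CP * (4 * τ) * L := by positivity
    have h3 := mul_le_mul_of_nonneg_left (add_le_add_left h1 (k * (lam / τ * τ ^ (J + 1)))) hK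
    have h4 : O ≤ L * O := le_mul_of_one_le_left hO0 hL1
    have h5 : L * O ≤ L ^ 2 * O := mul_le_mul_of_nonneg_right (by nlinarith) hO0
    have h6 : 4 * (O + P.Ex A) ≤ 4 * (1 + CE) * (L * O) + 4 * B := by nlinarith
    have h7 := mul_le_mul_of_nonneg_left h6 hK
    have h8 : CE * (L * O) ≤ CE * (L ^ 2 * O) := mul_le_mul_of_nonneg_left h5 hCE
    nlinarith

end Crest.Agent.KS
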