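import Crest.Agent.KS.DefsP

/-! Row 314, task LAB: the tree of the label paths. -/

set_option autoImplicit false

namespace Crest.Agent.KS

open Finset
open scoped Classical

namespace LabT

variable {L : Type} (d : L) (D : ℕ)

/-- nodes: a level and the labels at the levels above it (padded by `d` below) -/
def Nd : Type := {p : Fin (D + 1) × (Fin D → L) // ∀ l : Fin D, (l : ℕ) < p.1 → p.2 l = d}

noncomputable instance [Fintype L] : Fintype (Nd d D) := by
  unfold Nd; exact Subtype.fintype _

/-- the node at level `i` of the path `f` -/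
def node (i : ℕ) (f : ℕ → L) : Nd d D :=
  ⟨(⟨min i D, by omega⟩, fun l => if (l : ℕ) < i then d else f l), by
    intro l hl
    have : (l : ℕ) < i := lt_of_lt_of_le hl (min_le_left _ _)
    simp [this]⟩

/-- level -/
def lev (v : Nd d D) : ℕ := v.1.1

/-- labels -/
def lbl (v : Nd d D) : ℕ → L := fun l => if h : l < D then v.1.2 ⟨l, h⟩ else d

theorem lev_le (v : Nd d D) : lev d D v ≤ D := Nat.lt_succ_iff.mp v.1.1.2

theorem lev_node (i : ℕ) (f : ℕ → L) : lev d D (node d D i f) = min i D := rfl

theorem node_eq_iff (i j : ℕ) (f g : ℕ → L) :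
    node d D i f = node d D j g ↔ min i D = min j D ∧
      ∀ l, l < D → (if l < i then d else f l) = (if l < j then d else g l) := by
  constructor
  · intro h
    have h1 := congrArg (fun v : Nd d D => (v.1.1 : ℕ)) h
    have h2 := congrArg (fun v : Nd d D => v.1.2) h
    refine ⟨h1, fun l hl => ?_⟩
    exact congrFun h2 ⟨l, hl⟩
  · rintro ⟨h1, h2⟩
    apply Subtype.ext
    apply Prod.ext
    · exact Fin.ext h1
    · funext l
      exact h2 l l.2

theorem node_lbl (v : Nd d D) : node d D (lev d D v) (lbl d D v) = v := by
  apply Subtype.ext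
  apply Prod.ext
  · exact Fin.ext (min_eq_left (lev_le d D v))
  · funext l
    show (if (l : ℕ) < lev d D v then d else lbl d D v l) = v.1.2 l
    split_ifs with h
    · exact (v.2 l h).symm
    · simp [lbl, l.2]

theorem lbl_node (i : ℕ) (f : ℕ → L) (l : ℕ) (hl : l < D) :
    lbl d D (node d D i f) l = if l < i then d else f l := by
  simp [lbl, hl, node]

/-- parent -/
def par (v : Nd d D) : Nd d D := node d D (lev d D v + 1) (lbl d D v)

theorem par_node (i : ℕ) (f : ℕ → L) : par d D (node d D i f) = node d D (i + 1) f := by
  unfold par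
  rw [node_eq_iff, lev_node]
  refine ⟨by omega, fun l hl => ?_⟩
  rw [lbl_node d D i f l hl]
  by_cases h : l < i + 1
  · have : l < min i D + 1 := by omega
    simp [h, this]
  · have h1 : ¬ l < min i D + 1 := by omega
    have h2 : ¬ l < i := by omega
    simp [h, h1, h2]

/-- root -/
def root : Nd d D := node d D D (fun _ => d)

theorem lev_root (v : Nd d D) : lev d D v = D ↔ v = root d D := by
  constructor
  · intro h
    rw [← node_lbl d D v, root, node_eq_iff, h]
    exact ⟨rfl, fun l hl => by simp [hl]⟩
  · rintro rfl
    simp [root, lev_node]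

theorem lev_par (v : Nd d D) (hv : v ≠ root d D) : lev d D (par d D v) = lev d D v + 1 := by
  have h1 := lev_le d D v
  have h2 : lev d D v ≠ D := fun h => hv ((lev_root d D v).1 h)
  unfold par
  rw [lev_node]
  omega

/-- the tree -/
def tree : Tr (Nd d D) where
  root := root d D
  par := par d D
  dep := fun v => D - lev d D v
  par_root := by
    rw [← lev_root]
    unfold root
    rw [par_node, lev_node]
    omega
  dep_root := by
    show D - lev d D (root d D) = 0
    rw [(lev_root d D _).2 rfl]
    omega
  dep_par := by
    intro v hv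
    show D - lev d D v = D - lev d D (par d D v) + 1
    have h1 := lev_le d D v
    have h2 : lev d D v ≠ D := fun h => hv ((lev_root d D v).1 h)
    rw [lev_par d D v hv]
    omega

theorem iter_par (n : ℕ) (f : ℕ → L) : (par d D)^[n] (node d D 0 f) = node d D n f := by
  induction n with
  | zero => rfl
  | succ n ih => rw [Function.iterate_succ_apply', ih, par_node]

end LabT

theorem LAB_proof : LabStmt := by
  intro L _ hL D
  obtain ⟨d⟩ := hL
  refine ⟨LabT.Nd d D, inferInstance, ⟨⟨LabT.tree d D, LabT.lev d D, LabT.node d D, LabT.lbl d D,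
    LabT.lev_le d D, LabT.lev_root d D, LabT.lev_par d D, ?_, ?_, ?_, LabT.node_lbl d D, ?_⟩⟩⟩
  · intro i f hi
    rw [LabT.lev_node]
    omega
  · intro i f _
    exact LabT.par_node d D i f
  · intro i f g _
    rw [LabT.node_eq_iff]
    constructor
    · rintro ⟨_, h⟩ l h1 h2
      have := h l h2
      have h3 : ¬ l < i := by omega
      simpa [h3] using this
    · intro h
      refine ⟨rfl, fun l hl => ?_⟩
      by_cases h3 : l < i
      · simp [h3]
      · simp [h3, h l (by omega) hl]
  · intro v f
    constructor
    · rintro ⟨n, hn⟩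
      have h : LabT.node d D n f = v := by rw [← hn]; exact (LabT.iter_par d D n f).symm
      subst h
      rw [LabT.node_eq_iff, LabT.lev_node]
      refine ⟨by omega, fun l hl => ?_⟩
      by_cases h3 : l < n
      · have : l < min n D := by omega
        simp [h3, this]
      · have : ¬ l < min n D := by omega
        simp [h3, this]
    · intro h
      exact ⟨LabT.lev d D v, (LabT.iter_par d D _ f).trans h.symm⟩

end Crest.Agent.KS
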