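import Mathlib

/-! Row 314 (k-server): MinHash. The first element of a set in a uniformly random linear order. -/

set_option autoImplicit false

namespace Crest.Agent.KS

open Finset
open scoped Classical symmDiff

section MinHash

variable {Tok : Type} {m : ℕ}

/-- the first element of `S` in the order `ord` -/
noncomputable def first (ord : Tok ≃ Fin m) (S : Finset Tok) : Option Tok :=
  if h : S.Nonempty then some (ord.symm ((S.image ord).min' (h.image _))) else none

theorem first_eq_some_iff (ord : Tok ≃ Fin m) (S : Finset Tok) (x : Tok) :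
    first ord S = some x ↔ x ∈ S ∧ ∀ y ∈ S, ord x ≤ ord y := by
  unfold first
  split_ifs with h
  · constructor
    · intro hx
      have hx' : ord.symm ((S.image ord).min' (h.image _)) = x := by simpa using hx
      have hm := Finset.min'_mem (S.image ord) (h.image _)
      obtain ⟨z, hz, hz'⟩ := Finset.mem_image.1 hm
      have hxz : x = z := by rw [← hx', ← hz']; simp
      subst hxz
      refine ⟨hz, fun y hy => ?_⟩
      rw [hz']
      exact Finset.min'_le _ _ (Finset.mem_image_of_mem _ hy)
    · rintro ⟨hx, hle⟩
      have : (S.image ord).min' (h.image _) = ord x := by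
        apply le_antisymm
        · exact Finset.min'_le _ _ (Finset.mem_image_of_mem _ hx)
        · apply Finset.le_min'
          intro y hy
          obtain ⟨z, hz, rfl⟩ := Finset.mem_image.1 hy
          exact hle z hz
      rw [this]; simp
  · constructor
    · intro hx; simp at hx
    · rintro ⟨hx, -⟩; exact absurd ⟨x, hx⟩ h

theorem first_eq_none_iff (ord : Tok ≃ Fin m) (S : Finset Tok) :
    first ord S = none ↔ S = ∅ := by
  unfold first
  split_ifs with h
  · simp [h.ne_empty]
  · simpa using h

@[simp] theorem first_empty (ord : Tok ≃ Fin m) : first ord (∅ : Finset Tok) = none :=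
  (first_eq_none_iff ord ∅).2 rfl

theorem first_mem {ord : Tok ≃ Fin m} {S : Finset Tok} {x : Tok} (h : first ord S = some x) :
    x ∈ S := ((first_eq_some_iff ord S x).1 h).1

theorem exists_first (ord : Tok ≃ Fin m) {S : Finset Tok} (h : S.Nonempty) :
    ∃ x ∈ S, first ord S = some x := by
  cases hf : first ord S with
  | none => exact absurd ((first_eq_none_iff ord S).1 hf) h.ne_empty
  | some x => exact ⟨x, first_mem hf, rfl⟩

/-- the first element of a set is the first element of every subset that contains it -/
theorem first_of_subset {ord : Tok ≃ Fin m} {S U : Finset Tok} {x : Tok} (hSU : S ⊆ U)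
    (hx : x ∈ S) (h : first ord U = some x) : first ord S = some x :=
  (first_eq_some_iff ord S x).2 ⟨hx, fun y hy => ((first_eq_some_iff ord U x).1 h).2 y (hSU hy)⟩

variable [Fintype Tok]

theorem card_first_eq (U : Finset Tok) {x y : Tok} (hx : x ∈ U) (hy : y ∈ U) :
    (univ.filter (fun ord : Tok ≃ Fin m => first ord U = some x)).card =
      (univ.filter (fun ord : Tok ≃ Fin m => first ord U = some y)).card := by
  have key : ∀ (a b : Tok), a ∈ U → b ∈ U → ∀ ord : Tok ≃ Fin m, first ord U = some a →
      first ((Equiv.swap a b).trans ord) U = some b := by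
    intro a b ha hb ord h
    rw [first_eq_some_iff] at h ⊢
    refine ⟨hb, fun z hz => ?_⟩
    simp only [Equiv.trans_apply, Equiv.swap_apply_right]
    apply h.2
    by_cases h1 : z = a
    · subst h1; simpa using hb
    · by_cases h2 : z = b
      · subst h2; simpa using ha
      · rw [Equiv.swap_apply_of_ne_of_ne h1 h2]; exact hz
  apply Finset.card_bij' (fun ord _ => (Equiv.swap x y).trans ord)
    (fun ord _ => (Equiv.swap x y).trans ord)
  · intro ord h
    simp only [mem_filter, mem_univ, true_and] at h ⊢
    exact key x y hx hy ord h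
  · intro ord h
    simp only [mem_filter, mem_univ, true_and] at h ⊢
    rw [Equiv.swap_comm]
    exact key y x hy hx ord h
  · intro ord _; ext z; simp
  · intro ord _; ext z; simp

/-- every element of `U` is first with the same probability -/
theorem card_first_mul (U : Finset Tok) {x : Tok} (hx : x ∈ U) :
    (univ.filter (fun ord : Tok ≃ Fin m => first ord U = some x)).card * U.card =
      Fintype.card (Tok ≃ Fin m) := by
  have h1 : (univ : Finset (Tok ≃ Fin m)).card =
      ∑ y ∈ U.image some, (univ.filter (fun ord : Tok ≃ Fin m => first ord U = y)).card := by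
    apply Finset.card_eq_sum_card_fiberwise
    intro ord _
    obtain ⟨y, hy, h⟩ := exists_first ord ⟨x, hx⟩
    simp only [coe_image]
    exact ⟨y, hy, h.symm⟩
  rw [Finset.sum_image (fun a _ b _ h => Option.some.inj h)] at h1
  rw [← Finset.card_univ, h1, Finset.sum_congr rfl (fun y hy => card_first_eq (m := m) U hy hx)]
  simp [mul_comm]

/-- **MinHash**, counting form -/
theorem minhash_card (S S' : Finset Tok) :
    (univ.filter (fun ord : Tok ≃ Fin m => first ord S ≠ first ord S')).card * (S ∪ S').card ≤
      Fintype.card (Tok ≃ Fin m) * (S ∆ S').card := by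
  have hsub : univ.filter (fun ord : Tok ≃ Fin m => first ord S ≠ first ord S') ⊆
      (S ∆ S').biUnion (fun x => univ.filter
        (fun ord : Tok ≃ Fin m => first ord (S ∪ S') = some x)) := by
    intro ord h
    simp only [mem_filter, mem_univ, true_and] at h
    have hne : (S ∪ S').Nonempty := by
      rw [Finset.nonempty_iff_ne_empty]
      intro h0
      rw [Finset.union_eq_empty] at h0
      exact h (by rw [h0.1, h0.2])
    obtain ⟨x, hx, hf⟩ := exists_first ord hne
    simp only [mem_biUnion, mem_filter, mem_univ, true_and]
    refine ⟨x, ?_, hf⟩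
    rw [Finset.mem_symmDiff]
    by_contra hc
    have h1 : x ∈ S ∧ x ∈ S' := by
      rw [Finset.mem_union] at hx
      tauto
    exact h (by rw [first_of_subset Finset.subset_union_left h1.1 hf,
      first_of_subset Finset.subset_union_right h1.2 hf])
  calc _ ≤ (∑ x ∈ S ∆ S', (univ.filter
        (fun ord : Tok ≃ Fin m => first ord (S ∪ S') = some x)).card) * (S ∪ S').card :=
        Nat.mul_le_mul_right _ ((Finset.card_le_card hsub).trans Finset.card_biUnion_le)
    _ = ∑ x ∈ S ∆ S', Fintype.card (Tok ≃ Fin m) := by
        rw [Finset.sum_mul]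
        refine Finset.sum_congr rfl fun x hx => card_first_mul _ ?_
        rw [Finset.mem_symmDiff] at hx
        rw [Finset.mem_union]; tauto
    _ = _ := by simp [mul_comm]

/-- **MinHash**, average form: the average over all orders of the indicator of a change is at most
`|S ∆ S'| / |S ∪ S'|` (with `x / 0 = 0`). -/
theorem minhash_avg (S S' : Finset Tok) :
    (∑ ord : Tok ≃ Fin m, if first ord S = first ord S' then (0 : ℝ) else 1) ≤
      Fintype.card (Tok ≃ Fin m) * (((S ∆ S').card : ℝ) / (S ∪ S').card) := by
  have h1 : (∑ ord : Tok ≃ Fin m, if first ord S = first ord S' then (0 : ℝ) else 1) =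
      ((univ.filter (fun ord : Tok ≃ Fin m => first ord S ≠ first ord S')).card : ℝ) := by
    rw [Finset.card_filter]; push_cast
    refine Finset.sum_congr rfl fun ord _ => ?_
    by_cases h : first ord S = first ord S' <;> simp [h]
  rw [h1]
  rcases Nat.eq_zero_or_pos (S ∪ S').card with h0 | h0
  · rw [Finset.card_eq_zero, Finset.union_eq_empty] at h0
    rw [h0.1, h0.2]; simp
  · have h2 := minhash_card (m := m) S S'
    have h3 : (0 : ℝ) < (S ∪ S').card := by exact_mod_cast h0
    rw [← mul_div_assoc, le_div_iff₀ h3]
    exact_mod_cast h2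

/-- the same bound with any positive lower bound `D` of the size of the union -/
theorem minhash_avg' (S S' : Finset Tok) (D : ℝ) (hD : 0 < D) (h : D ≤ (S ∪ S').card) :
    (∑ ord : Tok ≃ Fin m, if first ord S = first ord S' then (0 : ℝ) else 1) ≤
      Fintype.card (Tok ≃ Fin m) * (((S ∆ S').card : ℝ) / D) := by
  refine (minhash_avg S S').trans ?_
  gcongr

/-- logarithmic form for nested sets: `|U \ S| / |U| ≤ log |U| - log |S|` -/
theorem minhash_log (S U : Finset Tok) (hS : S.Nonempty) (hSU : S ⊆ U) :
    (∑ ord : Tok ≃ Fin m, if first ord S = first ord U then (0 : ℝ) else 1) ≤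
      Fintype.card (Tok ≃ Fin m) * (Real.log U.card - Real.log S.card) := by
  refine (minhash_avg S U).trans ?_
  have hs : (0 : ℝ) < S.card := by exact_mod_cast hS.card_pos
  have hle : (S.card : ℝ) ≤ U.card := by exact_mod_cast Finset.card_le_card hSU
  have hu : (0 : ℝ) < U.card := lt_of_lt_of_le hs hle
  have h1 : S ∪ U = U := Finset.union_eq_right.2 hSU
  have h2 : ((S ∆ U).card : ℝ) = U.card - S.card := by
    rw [symmDiff_of_le hSU, Finset.card_sdiff_of_subset hSU,
      Nat.cast_sub (Finset.card_le_card hSU)]
  rw [h1, h2]
  gcongr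
  have h3 := Real.log_le_sub_one_of_pos (div_pos hs hu)
  rw [Real.log_div hs.ne' hu.ne'] at h3
  have h4 : ((U.card : ℝ) - S.card) / U.card = 1 - S.card / U.card := by field_simp
  rw [h4]; linarith

theorem card_ord_pos : 0 < Fintype.card (Tok ≃ Fin (Fintype.card Tok)) :=
  Fintype.card_pos_iff.2 ⟨Fintype.equivFin Tok⟩

end MinHash

end Crest.Agent.KS
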