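import Crest.Agent.KS.DefsP

set_option autoImplicit false

namespace Crest.Agent.KS

open Finset
open scoped Classical

theorem MT_proof (hTre : TreStmt) (hUp : UpStmt) (hDown : DownStmt) : MtStmt := by
  intro V _ T k Z hZ hS p
  obtain ⟨p₁, h1, h1'⟩ := hUp V T k Z hZ hS p
  obtain ⟨p₂, h2, h2'⟩ := hDown V T k Z hZ hS p₁ (fun v => by rw [h1]; exact min_le_right _ _)
  refine ⟨p₂, h2, ?_⟩
  intro wt K E _ a a' M ha ha' hM0 hMm hM
  obtain ⟨-, -, ⟨hrefl, -⟩, -, -, hAbel⟩ := hTre V T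
  have e1 := h1' (fun v => K * wt v) E a ha
  have e2 := h2' (fun v => K * wt v) E a' ha'
  have e3 : ∑ i, dist (a (p₁ i)) (a' (p₁ i)) ≤ ∑ i, M (p₁ i) := by
    refine Finset.sum_le_sum fun i _ => ?_
    have hpos : 0 < T.cnt p₁ (p₁ i) := by
      unfold Tr.cnt
      exact Finset.card_pos.mpr ⟨i, by simp [hrefl]⟩
    rw [h1] at hpos
    exact hM _ (lt_of_lt_of_le hpos (min_le_left _ _)) (lt_of_lt_of_le hpos (min_le_right _ _))
  have e4 : ∑ i, M (p₁ i) ≤ ∑ v ∈ T.nr, (M v - M (T.par v)) * Z v := by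
    rw [hAbel k p₁ M, hM0, mul_zero, zero_add]
    refine Finset.sum_le_sum fun v _ => mul_le_mul_of_nonneg_left ?_ (sub_nonneg.mpr (hMm v))
    rw [h1]; exact_mod_cast min_le_right _ _
  have e5 : ∑ v ∈ T.nr, K * wt v * ((T.cnt p v : ℝ) - T.cnt p₁ v) +
      ∑ v ∈ T.nr, K * wt v * ((Z v : ℝ) - T.cnt p₁ v) =
      K * T.mv wt (fun v => (T.cnt p v : ℝ)) (fun v => (Z v : ℝ)) := by
    unfold Tr.mv
    rw [Finset.mul_sum, ← Finset.sum_add_distrib]
    refine Finset.sum_congr rfl fun v _ => ?_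
    rw [h1]
    rcases le_total (T.cnt p v) (Z v) with h | h
    · have h' : (T.cnt p v : ℝ) ≤ Z v := by exact_mod_cast h
      rw [min_eq_left h, abs_of_nonneg (sub_nonneg.mpr h')]; ring
    · have h' : (Z v : ℝ) ≤ T.cnt p v := by exact_mod_cast h
      rw [min_eq_right h, abs_of_nonpos (sub_nonpos.mpr h')]; ring
  have e6 : ∑ i, dist (a (p i)) (a' (p₂ i)) ≤ ∑ i, dist (a (p i)) (a (p₁ i)) +
      ∑ i, dist (a (p₁ i)) (a' (p₁ i)) + ∑ i, dist (a' (p₁ i)) (a' (p₂ i)) := by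
    rw [← Finset.sum_add_distrib, ← Finset.sum_add_distrib]
    exact Finset.sum_le_sum fun i _ => dist_triangle4 _ _ _ _
  linarith

end Crest.Agent.KS
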