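import Crest.Agent.KS.DefsP

/-! Row 314, part P: the movement cost of the counts on the tree of label paths. -/

set_option autoImplicit false

namespace Crest.Agent.KS

open Finset
open scoped Classical

theorem mvq_geom (τ : ℝ) (hτ : 2 ≤ τ) (m : ℕ) : ∑ l ∈ range (m + 1), τ ^ l ≤ 2 * τ ^ m := by
  induction m with
  | zero => simp
  | succ m ih =>
    rw [sum_range_succ]
    have h0 : 0 ≤ τ ^ m := pow_nonneg (by linarith) m
    have : 2 * τ ^ m ≤ τ ^ (m + 1) := by rw [pow_succ]; nlinarith
    linarith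

theorem mvq_levels {L : Type} {D : ℕ} {V : Type} [Fintype V] (G : LabTree L D V) (w τ : ℝ)
    (hw : 0 < w) (hτ : 2 ≤ τ) (f f' : ℕ → L) :
    ∑ l ∈ range D, (if G.node l f = G.node l f' then 0 else w * τ ^ l) ≤
      2 * ∑ l ∈ range D, if f l = f' l then 0 else w * τ ^ l := by
  have hτ0 : 0 ≤ τ := by linarith
  have h1 : ∀ l ∈ range D, (if G.node l f = G.node l f' then 0 else w * τ ^ l) ≤
      ∑ l' ∈ range D, if l ≤ l' ∧ f l' ≠ f' l' then w * τ ^ l else 0 := by
    intro l hl
    have hlD : l < D := mem_range.1 hl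
    have hnn : ∀ l' ∈ range D, 0 ≤ (if l ≤ l' ∧ f l' ≠ f' l' then w * τ ^ l else 0) := by
      intro l' _
      split_ifs
      · positivity
      · exact le_rfl
    split_ifs with h
    · exact sum_nonneg hnn
    · rw [G.node_eq l f f' hlD.le] at h
      push Not at h
      obtain ⟨l', h1, h2, h3⟩ := h
      have := single_le_sum hnn (mem_range.2 h2)
      rwa [if_pos ⟨h1, h3⟩] at this
  refine (sum_le_sum h1).trans ?_
  rw [sum_comm, mul_sum]
  refine sum_le_sum fun l' hl' => ?_
  have hl'D : l' < D := mem_range.1 hl'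
  by_cases h : f l' = f' l'
  · simp [h]
  · rw [if_neg h]
    have h2 : ∑ l ∈ range D, (if l ≤ l' ∧ f l' ≠ f' l' then w * τ ^ l else 0) =
        ∑ l ∈ range (l' + 1), w * τ ^ l := by
      rw [← sum_filter]
      refine sum_congr ?_ fun _ _ => rfl
      ext l
      simp only [mem_filter, mem_range]
      constructor
      · rintro ⟨_, h1, _⟩; omega
      · intro h1; exact ⟨by omega, by omega, h⟩
    rw [h2, ← mul_sum]
    have := mvq_geom τ hτ l'
    nlinarith

theorem mvq_one {L : Type} {D : ℕ} {V : Type} [Fintype V] (G : LabTree L D V) (w τ : ℝ)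
    (hw : 0 < w) (hτ : 2 ≤ τ) (f f' : ℕ → L) :
    ∑ v ∈ G.T.nr, w * τ ^ G.lev v *
        |(if G.T.anc v (G.node 0 f') then (1 : ℝ) else 0) -
          (if G.T.anc v (G.node 0 f) then (1 : ℝ) else 0)| ≤
      4 * ∑ l ∈ range D, if f l = f' l then 0 else w * τ ^ l := by
  have hτ0 : 0 ≤ τ := by linarith
  set c : ℕ → ℝ := fun l => if G.node l f = G.node l f' then 0 else w * τ ^ l with hc
  have hc0 : ∀ l, 0 ≤ c l := by
    intro l; simp only [hc]; split_ifs
    · exact le_rfl
    · positivity
  have h1 : ∀ v ∈ G.T.nr, w * τ ^ G.lev v *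
      |(if G.T.anc v (G.node 0 f') then (1 : ℝ) else 0) -
          (if G.T.anc v (G.node 0 f) then (1 : ℝ) else 0)| ≤
      ∑ l ∈ range D, ((if v = G.node l f' then c l else 0) + (if v = G.node l f then c l else 0)) := by
    intro v hv
    have hvr : v ≠ G.T.root := by simpa [Tr.nr] using hv
    have hlv : G.lev v < D := lt_of_le_of_ne (G.lev_le v) (fun h => hvr ((G.lev_root v).1 h))
    have hnn : ∀ l ∈ range D,
        0 ≤ ((if v = G.node l f' then c l else 0) + (if v = G.node l f then c l else 0)) := by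
      intro l _
      have := hc0 l
      split_ifs <;> linarith
    refine le_trans ?_ (single_le_sum hnn (mem_range.2 hlv))
    rw [G.anc_node v f', G.anc_node v f]
    have hp : 0 ≤ w * τ ^ G.lev v := by positivity
    by_cases ha : v = G.node (G.lev v) f' <;> by_cases hb : v = G.node (G.lev v) f
    · rw [if_pos ha, if_pos hb, if_pos ha, if_pos hb]
      have := hc0 (G.lev v)
      simp only [sub_self, abs_zero, mul_zero]
      linarith
    · rw [if_pos ha, if_neg hb, if_pos ha, if_neg hb]
      have hne : G.node (G.lev v) f ≠ G.node (G.lev v) f' := fun h => hb (ha.trans h.symm)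
      simp [hc, hne]
    · rw [if_neg ha, if_pos hb, if_neg ha, if_pos hb]
      have hne : G.node (G.lev v) f ≠ G.node (G.lev v) f' := fun h => ha (hb.trans h)
      simp [hc, hne]
    · rw [if_neg ha, if_neg hb, if_neg ha, if_neg hb]
      simp
  refine (sum_le_sum h1).trans ?_
  rw [sum_comm]
  have h2 : ∀ l ∈ range D, ∑ v ∈ G.T.nr,
      ((if v = G.node l f' then c l else 0) + (if v = G.node l f then c l else 0)) ≤ 2 * c l := by
    intro l _
    rw [sum_add_distrib, sum_ite_eq', sum_ite_eq']
    have := hc0 l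
    split_ifs <;> linarith
  refine (sum_le_sum h2).trans ?_
  rw [← mul_sum]
  have := mvq_levels G w τ hw hτ f f'
  simp only [hc]
  linarith

theorem MVQ_proof : MvqStmt := by
  intro L D V _ G w τ hw hτ k f f'
  have hτ0 : 0 ≤ τ := by linarith
  unfold Tr.mv
  have h1 : ∀ v ∈ G.T.nr, w * τ ^ G.lev v *
      |(G.T.cnt (fun i => G.node 0 (f' i)) v : ℝ) - (G.T.cnt (fun i => G.node 0 (f i)) v : ℝ)| ≤
      ∑ i : Fin k, w * τ ^ G.lev v *
        |(if G.T.anc v (G.node 0 (f' i)) then (1 : ℝ) else 0) -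
          (if G.T.anc v (G.node 0 (f i)) then (1 : ℝ) else 0)| := by
    intro v _
    rw [← mul_sum]
    refine mul_le_mul_of_nonneg_left ?_ (by positivity)
    unfold Tr.cnt
    rw [card_filter, card_filter]
    push_cast
    rw [← sum_sub_distrib]
    exact abs_sum_le_sum_abs _ _
  refine (sum_le_sum h1).trans ?_
  rw [sum_comm, mul_sum]
  exact sum_le_sum fun i _ => mvq_one G w τ hw hτ (f i) (f' i)

end Crest.Agent.KS
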