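import Crest.Agent.KS.DefsP

/-! Row 314, part P: the algorithm on a tree with moving anchors. -/

set_option autoImplicit false

namespace Crest.Agent.KS

open Finset
open scoped Classical

namespace PHY

/-- placements defined by recursion with a choice function -/
noncomputable def pl {V Ω : Type} {k : ℕ} (F : (V → ℕ) → (Fin k → V) → Fin k → V) (p₀ : Fin k → V)
    (Z : ℕ → Ω → V → ℕ) : ℕ → Ω → Fin k → V
  | 0 => fun ω => F (Z 0 ω) p₀
  | t + 1 => fun ω => F (Z (t + 1) ω) (pl F p₀ Z t ω)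

theorem pl_ad {V Ω : Type} [Fintype Ω] {k : ℕ} (P : Bay Ω) (F : (V → ℕ) → (Fin k → V) → Fin k → V)
    (p₀ : Fin k → V) (Z : ℕ → Ω → V → ℕ) (hZ : ∀ t, P.Ad t (Z t)) :
    ∀ t, P.Ad t (pl F p₀ Z t) := by
  intro t
  induction t with
  | zero =>
    intro a b hab
    simp only [pl]
    rw [hZ 0 a b hab]
  | succ t ih =>
    intro a b hab
    simp only [pl]
    rw [hZ (t + 1) a b hab, ih a b (P.mono t a b hab)]

end PHY

theorem PHY_proof (hBay : BayStmt) (hTre : TreStmt) (hH : HStmt) (hRs : RsStmt) (hMt : MtStmt) :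
    PhyStmt := by
  obtain ⟨C, hC, hH⟩ := hH
  refine ⟨6 * C, by positivity, ?_⟩
  intro k hk V _ T τ wt hτ hwt n Ω _ P q E _ a M K lf hK ha hM hedge hM0 hMm hshift hlf
  obtain ⟨hEx, hExS, hco, hcoS, hcoA, htow, hAdm⟩ := hBay Ω P
  obtain ⟨-, -, ⟨hrefl, -, -, -, -⟩, hcnt, -, habel⟩ := hTre V T
  have hsup : ∀ p : Fin k → V, T.SupA (fun v => (T.cnt p v : ℝ)) := by
    intro p u
    have h := (hcnt k p).2 u
    have h2 : (T.cnt p u : ℝ) = (Tr.park p u : ℝ) + ∑ v ∈ T.ch u, (T.cnt p v : ℝ) := by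
      exact_mod_cast h
    have h3 : (0 : ℝ) ≤ (Tr.park p u : ℝ) := Nat.cast_nonneg _
    show ∑ v ∈ T.ch u, (T.cnt p v : ℝ) ≤ (T.cnt p u : ℝ)
    linarith
  obtain ⟨z, hzA, hzr, hzS, hzb, hz1, hzc⟩ := hH k hk V T τ wt hτ hwt Ω P
    (fun t ω v => T.cnt (q t ω) v) (fun t ω => (hcnt k _).1) (fun t ω => hsup _)
  have hD : ∀ t ω v, 0 ≤ M t ω v - M t ω (T.par v) := fun t ω v => sub_nonneg.2 (hMm t ω v)
  obtain ⟨Z, hZA, hZr, hZS, hZz, hZc⟩ := hRs V T τ wt hτ hwt k n Ω P z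
    (fun t ω v => M t ω v - M t ω (T.par v)) K hK hzA hzr hzS (fun t ω v => (hzb t ω v).1) hD
  have hF : ∀ (Y : V → ℕ) (p : Fin k → V), ∃ p' : Fin k → V,
      Y T.root = k → T.SupA (fun v => (Y v : ℝ)) → (∀ v, T.cnt p' v = Y v) ∧
      ∀ (a a' : V → E) (M : V → ℝ),
        (∀ v, v ≠ T.root → 0 < T.cnt p v → dist (a v) (a (T.par v)) ≤ K * wt v) →
        (∀ v, v ≠ T.root → 0 < Y v → dist (a' v) (a' (T.par v)) ≤ K * wt v) →
        M T.root = 0 → (∀ v, M (T.par v) ≤ M v) →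
        (∀ v, 0 < T.cnt p v → 0 < Y v → dist (a v) (a' v) ≤ M v) →
        ∑ i, dist (a (p i)) (a' (p' i)) ≤
          K * T.mv wt (fun v => (T.cnt p v : ℝ)) (fun v => (Y v : ℝ)) +
            ∑ v ∈ T.nr, (M v - M (T.par v)) * Y v := by
    intro Y p
    by_cases h : Y T.root = k ∧ T.SupA (fun v => (Y v : ℝ))
    · obtain ⟨p', h1, h2⟩ := hMt V T k Y h.1 h.2 p
      exact ⟨p', fun _ _ => ⟨h1, fun a a' M => h2 wt K E a a' M⟩⟩
    · exact ⟨p, fun h1 h2 => absurd ⟨h1, h2⟩ h⟩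
  choose F hF using hF
  set pp := PHY.pl F (fun _ => T.root) Z with hpp
  have hppc : ∀ t ω v, T.cnt (pp t ω) v = Z t ω v := by
    intro t ω
    cases t with
    | zero => exact (hF (Z 0 ω) _ (hZr 0 ω) (hZS 0 ω)).1
    | succ t => exact (hF (Z (t + 1) ω) (pp t ω) (hZr _ ω) (hZS _ ω)).1
  have hlive : ∀ t ω v, 0 < Z t ω v → Live T P q t ω v := by
    intro t ω v h
    have h1 := (hZz t ω v).1 h
    have h2 := (hzb t ω v).2
    have h3 : 0 < P.cond t (fun b => (T.cnt (q t b) v : ℝ)) ω := by linarith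
    obtain ⟨b, hb, hb2⟩ := (hco t (fun b => (T.cnt (q t b) v : ℝ)) (fun _ => 0) 0 ω).2.2.2.2
      (fun b => Nat.cast_nonneg _) h3
    have h4 : 0 < T.cnt (q t b) v := by exact_mod_cast hb2
    obtain ⟨i, hi⟩ := Finset.card_pos.1 h4
    exact ⟨b, hb, i, (Finset.mem_filter.1 hi).2⟩
  refine ⟨fun t ω i => a t ω (pp t ω i), ?_, ?_, ?_⟩
  · intro t x y hxy
    have h1 := ha t x y hxy
    have h2 := PHY.pl_ad P F (fun _ => T.root) Z hZA t x y hxy
    funext i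
    show a t x (pp t x i) = a t y (pp t y i)
    rw [h1, hpp, h2]
  · intro t ω
    obtain ⟨hl1, hl2⟩ := hlf t ω
    have h1 : 1 ≤ z (t + 1) ω (lf t ω) := by
      refine hz1 (t + 1) ω (lf t ω) (fun b hb => ?_)
      obtain ⟨i, hi⟩ := hl2 b hb
      refine Finset.card_pos.2 ⟨i, Finset.mem_filter.2 ⟨Finset.mem_univ _, ?_⟩⟩
      rw [hi]; exact hrefl _
    have h2 := (hZz (t + 1) ω (lf t ω)).2 h1
    rw [← hppc, (hcnt k _).2, hl1, Finset.sum_empty, add_zero] at h2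
    obtain ⟨i, hi⟩ := Finset.card_pos.1 (lt_of_lt_of_le Nat.one_pos h2)
    exact ⟨i, by show a (t + 1) ω (pp (t + 1) ω i) = _; rw [(Finset.mem_filter.1 hi).2]⟩
  · have hstep : ∀ t ω, ∑ i, dist (a t ω (pp t ω i)) (a (t + 1) ω (pp (t + 1) ω i)) ≤
        K * T.mv wt (fun v => (Z t ω v : ℝ)) (fun v => (Z (t + 1) ω v : ℝ)) +
          ∑ v ∈ T.nr, (M t ω v - M t ω (T.par v)) * Z (t + 1) ω v := by
      intro t ω
      have h := (hF (Z (t + 1) ω) (pp t ω) (hZr _ ω) (hZS _ ω)).2 (a t ω) (a (t + 1) ω) (M t ω)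
        (fun v hv h => hedge t ω v hv (hlive t ω v (by rwa [hppc] at h)))
        (fun v hv h => hedge (t + 1) ω v hv (hlive _ ω v h)) (hM0 t ω) (hMm t ω)
        (fun v h h' => hshift t ω v (hlive t ω v (by rwa [hppc] at h)) (hlive _ ω v h'))
      have e : (fun v => (T.cnt (pp t ω) v : ℝ)) = fun v => (Z t ω v : ℝ) := by
        funext v; rw [hppc]
      rw [e] at h
      exact h
    have h1 : P.Ex (fun ω => ∑ t ∈ range n, ∑ i,
        dist (a t ω (pp t ω i)) (a (t + 1) ω (pp (t + 1) ω i))) ≤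
        P.Ex (fun ω => ∑ t ∈ range n,
          (K * T.mv wt (fun v => (Z t ω v : ℝ)) (fun v => (Z (t + 1) ω v : ℝ)) +
            ∑ v ∈ T.nr, (M t ω v - M t ω (T.par v)) * Z (t + 1) ω v)) :=
      (hEx _ _ 0).2.2.2 (fun ω => Finset.sum_le_sum (fun t _ => hstep t ω))
    have h2 : P.Ex (fun ω => ∑ t ∈ range n, (6 * K * T.mv wt (z t ω) (z (t + 1) ω) +
          ∑ v ∈ T.nr, (M t ω v - M t ω (T.par v)) * z (t + 1) ω v)) =
        6 * K * P.Ex (fun ω => ∑ t ∈ range n, T.mv wt (z t ω) (z (t + 1) ω)) +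
        P.Ex (fun ω => ∑ t ∈ range n,
          ∑ v ∈ T.nr, (M t ω v - M t ω (T.par v)) * z (t + 1) ω v) := by
      rw [← (hEx _ (fun _ => 0) (6 * K)).2.1, ← (hEx _ _ 0).1]
      congr 1
      funext ω
      rw [Finset.sum_add_distrib, Finset.mul_sum]
    have h3 : ∀ t v, P.Ex (fun ω => (M t ω v - M t ω (T.par v)) * z (t + 1) ω v) ≤
        P.Ex (fun ω => 2 * ((M t ω v - M t ω (T.par v)) * (T.cnt (q (t + 1) ω) v : ℝ))) := by
      intro t v
      have hAd : P.Ad (t + 1) (fun ω => M t ω v - M t ω (T.par v)) := by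
        intro x y hxy
        show M t x v - M t x (T.par v) = M t y v - M t y (T.par v)
        rw [hM t x y hxy]
      rw [(hEx _ (fun _ => 0) 2).2.1, ← htow (t + 1) (fun b => (T.cnt (q (t + 1) b) v : ℝ)) _ hAd,
        ← (hEx _ (fun _ => 0) 2).2.1]
      refine (hEx _ _ 0).2.2.2 (fun ω => ?_)
      have := mul_le_mul_of_nonneg_left (hzb (t + 1) ω v).2 (hD t ω v)
      linarith
    have h4 : P.Ex (fun ω => ∑ t ∈ range n,
          ∑ v ∈ T.nr, (M t ω v - M t ω (T.par v)) * z (t + 1) ω v) ≤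
        2 * P.Ex (fun ω => ∑ t ∈ range n, ∑ i, M t ω (q (t + 1) ω i)) := by
      rw [← (hEx _ (fun _ => 0) 2).2.1]
      have e : (fun ω => 2 * ∑ t ∈ range n, ∑ i, M t ω (q (t + 1) ω i)) =
          fun ω => ∑ t ∈ range n, ∑ v ∈ T.nr,
            2 * ((M t ω v - M t ω (T.par v)) * (T.cnt (q (t + 1) ω) v : ℝ)) := by
        funext ω
        rw [Finset.mul_sum]
        refine Finset.sum_congr rfl (fun t _ => ?_)
        rw [habel k (q (t + 1) ω) (M t ω), hM0, mul_zero, zero_add, Finset.mul_sum]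
      rw [e, hExS, hExS]
      refine Finset.sum_le_sum (fun t _ => ?_)
      rw [hExS, hExS]
      exact Finset.sum_le_sum (fun v _ => h3 t v)
    have h5 := mul_le_mul_of_nonneg_left (hzc n) (by positivity : 0 ≤ 6 * K)
    have h6 := hZc
    rw [h2] at h6
    show P.Ex (fun ω => ∑ t ∈ range n, ∑ i,
        dist (a t ω (pp t ω i)) (a (t + 1) ω (pp (t + 1) ω i))) ≤ _
    calc _ ≤ _ := h1
      _ ≤ _ := h6
      _ ≤ _ := by nlinarith [h4, h5]

end Crest.Agent.KS
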