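import Crest.Agent.KS.DefsP

/-! Row 314, part P: one level of the rounding (RB). -/

set_option autoImplicit false

namespace Crest.Agent.KS

open Finset
open scoped Classical

theorem rb_fix (N : ℕ) (ι : Type) (C : Finset ι) (y' : ι → ℕ) (yu : ℕ)
    (U' : Fin N → ℕ) (hU : Bal N yu U') (hy : ∑ v ∈ C, y' v ≤ yu) :
    ∀ (e : ℕ) (W : ι → Fin N → ℕ), (∀ v ∈ C, Bal N (y' v) (W v)) →
      ∑ n, (∑ v ∈ C, W v n - U' n) = e →
      ∃ Z' : ι → Fin N → ℕ, (∀ v ∈ C, Bal N (y' v) (Z' v)) ∧ (∀ n, ∑ v ∈ C, Z' v n ≤ U' n) ∧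
        ∑ v ∈ C, ∑ n, |(Z' v n : ℝ) - W v n| ≤ 2 * (e : ℝ) := by
  intro e
  induction e using Nat.strong_induction_on with
  | _ e ih =>
    intro W hW he
    by_cases hall : ∀ n, ∑ v ∈ C, W v n ≤ U' n
    · refine ⟨W, hW, hall, ?_⟩
      simp
    · push Not at hall
      obtain ⟨n, hn⟩ := hall
      have htot : ∑ m, ∑ v ∈ C, W v m ≤ ∑ m, U' m := by
        rw [Finset.sum_comm, hU.1]
        calc ∑ v ∈ C, ∑ m, W v m = ∑ v ∈ C, y' v := Finset.sum_congr rfl (fun v hv => (hW v hv).1)
          _ ≤ yu := hy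
      have hex : ∃ n', ∑ v ∈ C, W v n' < U' n' := by
        by_contra hc
        push Not at hc
        have : ∑ m, U' m < ∑ m, ∑ v ∈ C, W v m :=
          Finset.sum_lt_sum (fun m _ => hc m) ⟨n, Finset.mem_univ _, hn⟩
        omega
      obtain ⟨n', hn'⟩ := hex
      have h1 := (hU.2 n).1
      have h2 := (hU.2 n').2
      have hlt : ∑ v ∈ C, W v n' < ∑ v ∈ C, W v n := by omega
      obtain ⟨v, hv, hvlt⟩ := Finset.exists_lt_of_sum_lt hlt
      have hne : n ≠ n' := by
        rintro rfl
        omega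
      have h3 := ((hW v hv).2 n).2
      have h4 := ((hW v hv).2 n').1
      have hd : W v n = W v n' + 1 := by omega
      set W' : ι → Fin N → ℕ := fun u m => if u = v then W v (Equiv.swap n n' m) else W u m
        with hW'
      have hsum : ∀ m, ∑ u ∈ C, W' u m + W v m = ∑ u ∈ C, W u m + W v (Equiv.swap n n' m) := by
        intro m
        rw [← Finset.add_sum_erase C (fun u => W' u m) hv,
          ← Finset.add_sum_erase C (fun u => W u m) hv]
        have : ∑ u ∈ C.erase v, W' u m = ∑ u ∈ C.erase v, W u m :=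
          Finset.sum_congr rfl (fun u hu => by
            simp only [hW', if_neg (Finset.ne_of_mem_erase hu)])
        rw [this]
        simp only [hW', if_true]
        omega
      have hbal : ∀ u ∈ C, Bal N (y' u) (W' u) := by
        intro u hu
        by_cases huv : u = v
        · subst huv
          refine ⟨?_, fun m => ?_⟩
          · simp only [hW', if_true]
            rw [Equiv.sum_comp (Equiv.swap n n') (W u)]
            exact (hW u hu).1
          · simp only [hW', if_true]
            exact (hW u hu).2 _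
        · have : W' u = W u := by
            funext m
            simp only [hW', if_neg huv]
          rw [this]
          exact hW u hu
      have hdec : ∑ m, (∑ u ∈ C, W' u m - U' m) < e := by
        rw [← he]
        refine Finset.sum_lt_sum (fun m _ => ?_) ⟨n, Finset.mem_univ _, ?_⟩
        · have hm := hsum m
          by_cases h1 : m = n
          · subst h1
            rw [Equiv.swap_apply_left] at hm
            omega
          · by_cases h2 : m = n'
            · subst h2
              rw [Equiv.swap_apply_right] at hm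
              omega
            · rw [Equiv.swap_apply_of_ne_of_ne h1 h2] at hm
              omega
        · have hm := hsum n
          rw [Equiv.swap_apply_left] at hm
          omega
      obtain ⟨Z', hZ1, hZ2, hZ3⟩ := ih _ hdec W' hbal rfl
      refine ⟨Z', hZ1, hZ2, ?_⟩
      have hcost : ∑ u ∈ C, ∑ m, |(W' u m : ℝ) - W u m| ≤ 2 := by
        rw [← Finset.add_sum_erase C (fun u => ∑ m, |(W' u m : ℝ) - W u m|) hv]
        have h0 : ∑ u ∈ C.erase v, ∑ m, |(W' u m : ℝ) - W u m| = 0 :=
          Finset.sum_eq_zero (fun u hu => by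
            simp [hW', if_neg (Finset.ne_of_mem_erase hu)])
        rw [h0, add_zero]
        have hb : ∀ m, |(W' v m : ℝ) - W v m| ≤
            (if m = n then 1 else 0) + (if m = n' then 1 else 0) := by
          intro m
          simp only [hW', if_true]
          by_cases h1 : m = n
          · subst h1
            rw [Equiv.swap_apply_left, hd, if_pos rfl, if_neg hne]
            push_cast
            rw [abs_le]; constructor <;> linarith
          · by_cases h2 : m = n'
            · subst h2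
              rw [Equiv.swap_apply_right, hd, if_neg h1, if_pos rfl]
              push_cast
              rw [abs_le]; constructor <;> linarith
            · rw [Equiv.swap_apply_of_ne_of_ne h1 h2, if_neg h1, if_neg h2]
              simp
        calc ∑ m, |(W' v m : ℝ) - W v m|
            ≤ ∑ m : Fin N, ((if m = n then (1:ℝ) else 0) + (if m = n' then 1 else 0)) :=
              Finset.sum_le_sum (fun m _ => hb m)
          _ = 2 := by
              rw [Finset.sum_add_distrib]
              simp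
              norm_num
      have htri : ∑ u ∈ C, ∑ m, |(Z' u m : ℝ) - W u m| ≤
          ∑ u ∈ C, ∑ m, |(Z' u m : ℝ) - W' u m| + ∑ u ∈ C, ∑ m, |(W' u m : ℝ) - W u m| := by
        rw [← Finset.sum_add_distrib]
        refine Finset.sum_le_sum (fun u _ => ?_)
        rw [← Finset.sum_add_distrib]
        exact Finset.sum_le_sum (fun m _ => abs_sub_le _ _ _)
      have hdec' : ((∑ m, (∑ u ∈ C, W' u m - U' m) : ℕ) : ℝ) + 1 ≤ e := by
        exact_mod_cast hdec
      linarith

theorem RB_proof (hRb1 : Rb1Stmt) : RbStmt := by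
  intro N hN ι C y y' Z yu U U' hZ hU hU' hy
  have h1 : ∀ v, ∃ W : Fin N → ℕ, v ∈ C →
      (Bal N (y' v) W ∧ ∑ n, |(W n : ℝ) - Z v n| ≤ |(y' v : ℝ) - y v|) := by
    intro v
    by_cases hv : v ∈ C
    · obtain ⟨W, hW⟩ := hRb1 N hN (y v) (y' v) (Z v) (hZ v hv)
      exact ⟨W, fun _ => hW⟩
    · exact ⟨Z v, fun h => absurd h hv⟩
  choose W hW using h1
  obtain ⟨Z', hZ1, hZ2, hZ3⟩ := rb_fix N ι C y' yu U' hU' hy _ W (fun v hv => (hW v hv).1) rfl
  refine ⟨Z', hZ1, hZ2, ?_⟩
  have hA : ∑ v ∈ C, ∑ n, |(W v n : ℝ) - Z v n| ≤ ∑ v ∈ C, |(y' v : ℝ) - y v| :=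
    Finset.sum_le_sum (fun v hv => (hW v hv).2)
  have hE : ((∑ n, (∑ v ∈ C, W v n - U' n) : ℕ) : ℝ) ≤
      ∑ v ∈ C, ∑ n, |(W v n : ℝ) - Z v n| + ∑ n, |(U' n : ℝ) - U n| := by
    rw [Finset.sum_comm, ← Finset.sum_add_distrib, Nat.cast_sum]
    refine Finset.sum_le_sum (fun n _ => ?_)
    have hn : ((∑ v ∈ C, Z v n : ℕ) : ℝ) ≤ U n := by exact_mod_cast hU n
    rw [Nat.cast_sum] at hn
    have h2 : ∑ v ∈ C, ((W v n : ℝ) - Z v n) ≤ ∑ v ∈ C, |(W v n : ℝ) - Z v n| :=
      Finset.sum_le_sum (fun v _ => le_abs_self _)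
    have h2' : 0 ≤ ∑ v ∈ C, |(W v n : ℝ) - Z v n| :=
      Finset.sum_nonneg (fun v _ => abs_nonneg _)
    rw [Finset.sum_sub_distrib] at h2
    have h3 := neg_abs_le ((U' n : ℝ) - U n)
    have h3' := abs_nonneg ((U' n : ℝ) - U n)
    by_cases hc : U' n ≤ ∑ v ∈ C, W v n
    · rw [Nat.cast_sub hc, Nat.cast_sum]
      linarith
    · rw [Nat.sub_eq_zero_of_le (by omega)]
      simp only [Nat.cast_zero]
      linarith
  have htri : ∑ u ∈ C, ∑ m, |(Z' u m : ℝ) - Z u m| ≤
      ∑ u ∈ C, ∑ m, |(Z' u m : ℝ) - W u m| + ∑ u ∈ C, ∑ m, |(W u m : ℝ) - Z u m| := by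
    rw [← Finset.sum_add_distrib]
    refine Finset.sum_le_sum (fun u _ => ?_)
    rw [← Finset.sum_add_distrib]
    exact Finset.sum_le_sum (fun m _ => abs_sub_le _ _ _)
  linarith

end Crest.Agent.KS
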