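import Crest.Agent.KS.DefsP

set_option autoImplicit false

namespace Crest.Agent.KS

open Finset

namespace RB1

theorem bal_of {N : ℕ} (hN : 0 < N) {y q : ℕ} {Z : Fin N → ℕ} (hs : ∑ n, Z n = y)
    (hb : ∀ n, q ≤ Z n ∧ Z n ≤ q + 1) : Bal N y Z := by
  refine ⟨hs, ?_⟩
  by_cases hall : ∀ n, Z n = q + 1
  · have hy : y = N * (q + 1) := by
      rw [← hs, Finset.sum_congr rfl (fun n _ => hall n)]; simp
    have hq : y / N = q + 1 := by rw [hy]; exact Nat.mul_div_cancel_left _ hN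
    intro n; rw [hq, hall n]; omega
  · push Not at hall
    obtain ⟨n0, hn0⟩ := hall
    have h1 : N * q ≤ y := by
      rw [← hs]
      calc N * q = ∑ _n : Fin N, q := by simp
        _ ≤ ∑ n, Z n := Finset.sum_le_sum (fun n _ => (hb n).1)
    have h2 : y < N * (q + 1) := by
      rw [← hs]
      calc ∑ n, Z n < ∑ _n : Fin N, (q + 1) :=
            Finset.sum_lt_sum (fun n _ => (hb n).2)
              ⟨n0, Finset.mem_univ _, lt_of_le_of_ne (hb n0).2 hn0⟩
        _ = N * (q + 1) := by simp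
    have hq : y / N = q := by
      apply Nat.div_eq_of_lt_le
      · rw [mul_comm]; exact h1
      · rw [mul_comm]; exact h2
    intro n; rw [hq]; exact hb n

theorem sum_update {N : ℕ} (Z : Fin N → ℕ) (n : Fin N) (a : ℕ) :
    ∑ m, Function.update Z n a m + Z n = ∑ m, Z m + a := by
  classical
  rw [Finset.sum_update_of_mem (Finset.mem_univ n),
    ← Finset.add_sum_erase Finset.univ Z (Finset.mem_univ n), Finset.sdiff_singleton_eq_erase]
  ring

theorem cost_update {N : ℕ} (Z : Fin N → ℕ) (n : Fin N) (a : ℕ) :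
    ∑ m, |((Function.update Z n a m : ℕ) : ℝ) - Z m| = |(a : ℝ) - Z n| := by
  classical
  rw [Finset.sum_eq_single n]
  · simp
  · intro m _ hm; simp [Function.update_of_ne hm]
  · intro h; exact absurd (Finset.mem_univ n) h

theorem up {N : ℕ} (hN : 0 < N) {y : ℕ} {Z : Fin N → ℕ} (h : Bal N y Z) :
    ∃ Z' : Fin N → ℕ, Bal N (y + 1) Z' ∧ ∑ n, |(Z' n : ℝ) - Z n| ≤ 1 := by
  classical
  obtain ⟨hs, hb⟩ := h
  have : ∃ n, Z n = y / N := by
    by_contra hc
    push Not at hc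
    have hall : ∀ n, Z n = y / N + 1 := fun n => by have := hb n; have := hc n; omega
    have hy : y = N * (y / N + 1) := by
      conv_lhs => rw [← hs]
      rw [Finset.sum_congr rfl (fun n _ => hall n)]; simp
    have := Nat.lt_mul_div_succ y hN
    omega
  obtain ⟨n, hn⟩ := this
  refine ⟨Function.update Z n (Z n + 1), bal_of hN (q := y / N) ?_ ?_, ?_⟩
  · have := sum_update Z n (Z n + 1); omega
  · intro m
    by_cases hm : m = n
    · subst hm; simp only [Function.update_self]; omega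
    · rw [Function.update_of_ne hm]; exact hb m
  · rw [cost_update]; push_cast; simp

theorem down {N : ℕ} (hN : 0 < N) {y : ℕ} {Z : Fin N → ℕ} (h : Bal N (y + 1) Z) :
    ∃ Z' : Fin N → ℕ, Bal N y Z' ∧ ∑ n, |(Z' n : ℝ) - Z n| ≤ 1 := by
  classical
  obtain ⟨hs, hb⟩ := h
  have key : ∀ (n : Fin N) (q : ℕ), Z n = q + 1 → (∀ m, q ≤ Z m ∧ Z m ≤ q + 1) →
      ∃ Z' : Fin N → ℕ, Bal N y Z' ∧ ∑ n, |(Z' n : ℝ) - Z n| ≤ 1 := by
    intro n q hn hq
    refine ⟨Function.update Z n q, bal_of hN (q := q) ?_ ?_, ?_⟩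
    · have := sum_update Z n q; omega
    · intro m
      by_cases hm : m = n
      · subst hm; simp only [Function.update_self]; omega
      · rw [Function.update_of_ne hm]; exact hq m
    · rw [cost_update, hn]; push_cast; simp
  by_cases hex : ∃ n, Z n = (y + 1) / N + 1
  · obtain ⟨n, hn⟩ := hex
    exact key n _ hn hb
  · push Not at hex
    have hall : ∀ n, Z n = (y + 1) / N := fun n => by have := hb n; have := hex n; omega
    have hy : y + 1 = N * ((y + 1) / N) := by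
      conv_lhs => rw [← hs]
      rw [Finset.sum_congr rfl (fun n _ => hall n)]; simp
    obtain ⟨q, hq⟩ : ∃ q, (y + 1) / N = q + 1 := by
      rcases Nat.eq_zero_or_pos ((y + 1) / N) with h0 | h0
      · rw [h0] at hy; omega
      · exact ⟨(y + 1) / N - 1, by omega⟩
    refine key ⟨0, hN⟩ q (by rw [hall, hq]) (fun m => ?_)
    rw [hall, hq]; omega

theorem tri {N : ℕ} (A B C : Fin N → ℕ) :
    ∑ n, |(C n : ℝ) - A n| ≤ ∑ n, |(C n : ℝ) - B n| + ∑ n, |(B n : ℝ) - A n| := by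
  rw [← Finset.sum_add_distrib]
  exact Finset.sum_le_sum (fun n _ => abs_sub_le _ _ _)

theorem ups {N : ℕ} (hN : 0 < N) {y : ℕ} {Z : Fin N → ℕ} (h : Bal N y Z) (d : ℕ) :
    ∃ Z' : Fin N → ℕ, Bal N (y + d) Z' ∧ ∑ n, |(Z' n : ℝ) - Z n| ≤ d := by
  induction d with
  | zero => exact ⟨Z, h, by simp⟩
  | succ d ih =>
    obtain ⟨Z1, h1, c1⟩ := ih
    obtain ⟨Z2, h2, c2⟩ := up hN h1
    refine ⟨Z2, h2, ?_⟩
    have := tri Z Z1 Z2
    push_cast; linarith

theorem downs {N : ℕ} (hN : 0 < N) (d : ℕ) : ∀ {y : ℕ} {Z : Fin N → ℕ}, Bal N (y + d) Z →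
    ∃ Z' : Fin N → ℕ, Bal N y Z' ∧ ∑ n, |(Z' n : ℝ) - Z n| ≤ d := by
  induction d with
  | zero => intro y Z h; exact ⟨Z, h, by simp⟩
  | succ d ih =>
    intro y Z h
    obtain ⟨Z1, h1, c1⟩ := down hN (y := y + d) h
    obtain ⟨Z2, h2, c2⟩ := ih h1
    refine ⟨Z2, h2, ?_⟩
    have := tri Z Z1 Z2
    push_cast; linarith

end RB1

theorem RB1_proof : Rb1Stmt := by
  intro N hN y y' Z h
  rcases le_total y y' with hy | hy
  · obtain ⟨d, rfl⟩ := Nat.exists_eq_add_of_le hy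
    obtain ⟨Z', h1, c⟩ := RB1.ups hN h d
    refine ⟨Z', h1, c.trans ?_⟩
    push_cast; rw [add_sub_cancel_left]; exact le_abs_self _
  · obtain ⟨d, rfl⟩ := Nat.exists_eq_add_of_le hy
    obtain ⟨Z', h1, c⟩ := RB1.downs hN d h
    refine ⟨Z', h1, c.trans ?_⟩
    push_cast; rw [abs_sub_comm, add_sub_cancel_left]; exact le_abs_self _

end Crest.Agent.KS
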