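import Crest.Agent.KS.DefsP

/-! Row 314, part P: rounding of an adapted fractional solution (**RS**). -/

set_option autoImplicit false

namespace Crest.Agent.KS

open Finset
open scoped Classical

namespace Rs

theorem abs_floor_sub {a b : ℝ} (ha : 0 ≤ a) (hb : 0 ≤ b) :
    |((⌊b⌋₊ : ℕ) : ℝ) - (⌊a⌋₊ : ℕ)| ≤ |b - a| + 1 := by
  have h1 := Nat.floor_le ha
  have h2 := Nat.floor_le hb
  have h3 := Nat.lt_floor_add_one a
  have h4 := Nat.lt_floor_add_one b
  have h5 := le_abs_self (b - a)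
  have h6 := neg_abs_le (b - a)
  rw [abs_le]
  constructor <;> linarith

theorem bal_root {N k : ℕ} (hN : 0 < N) {Z : Fin N → ℕ} (h : Bal N (N * k) Z) (m : Fin N) :
    Z m = k := by
  obtain ⟨hs, hb⟩ := h
  have hd : N * k / N = k := Nat.mul_div_cancel_left k hN
  have hle : ∀ i ∈ (univ : Finset (Fin N)), k ≤ Z i := fun i _ => hd ▸ (hb i).1
  have hs' : ∑ _i : Fin N, k = ∑ i, Z i := by simp [hs]
  exact ((Finset.sum_eq_sum_iff_of_le hle).1 hs' m (mem_univ m)).symm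

/-- one step of the rounding as a function of the old totals, the new totals and the old family -/
theorem exists_step (hRt : RtStmt) {V : Type} [Fintype V] (T : Tr V) {τ : ℝ} {wt : V → ℝ}
    (hτ : 16 ≤ τ) (hw : T.Wt τ wt) {N : ℕ} (hN : 0 < N) :
    ∃ F : (V → ℕ) → (V → ℕ) → (V → Fin N → ℕ) → V → Fin N → ℕ,
      ∀ y y' Z, GoodZ T N y Z → y' T.root = y T.root → T.SupA (fun v => (y' v : ℝ)) →
        GoodZ T N y' (F y y' Z) ∧
          ∑ n, T.mv wt (fun v => (Z v n : ℝ)) (fun v => (F y y' Z v n : ℝ)) ≤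
            6 * T.mv wt (fun v => (y v : ℝ)) (fun v => (y' v : ℝ)) := by
  have h : ∀ (y y' : V → ℕ) (Z : V → Fin N → ℕ), ∃ Z' : V → Fin N → ℕ,
      GoodZ T N y Z → y' T.root = y T.root → T.SupA (fun v => (y' v : ℝ)) →
        GoodZ T N y' Z' ∧
          ∑ n, T.mv wt (fun v => (Z v n : ℝ)) (fun v => (Z' v n : ℝ)) ≤
            6 * T.mv wt (fun v => (y v : ℝ)) (fun v => (y' v : ℝ)) := by
    intro y y' Z
    by_cases hh : GoodZ T N y Z ∧ y' T.root = y T.root ∧ T.SupA (fun v => (y' v : ℝ))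
    · obtain ⟨Z', h1, h2⟩ := hRt V T τ wt hτ hw N hN y y' Z hh.1 hh.2.1 hh.2.2
      exact ⟨Z', fun _ _ _ => ⟨h1, h2⟩⟩
    · exact ⟨Z, fun a b c => absurd ⟨a, b, c⟩ hh⟩
  choose F hF using h
  exact ⟨F, hF⟩

/-- the families -/
noncomputable def fam {V Ω : Type} {N : ℕ}
    (F : (V → ℕ) → (V → ℕ) → (V → Fin N → ℕ) → V → Fin N → ℕ) (y0 : V → ℕ) (Z0 : V → Fin N → ℕ)
    (y : ℕ → Ω → V → ℕ) : ℕ → Ω → V → Fin N → ℕ
  | 0, ω => F y0 (y 0 ω) Z0
  | t + 1, ω => F (y t ω) (y (t + 1) ω) (fam F y0 Z0 y t ω)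

end Rs

open Rs in
theorem RS_proof (hBay : BayStmt) (hRt : RtStmt) : RsStmt := by
  intro V _ T τ wt hτ hw k n Ω _ P z D K hK hzA hzr hzS hz0 hD0
  obtain ⟨hE, hES, -, -, -, -, hmono⟩ := hBay Ω P
  set W : ℝ := ∑ v ∈ T.nr, wt v with hW
  have hW0 : 0 ≤ W := Finset.sum_nonneg fun v _ => (hw.1 v).le
  obtain ⟨N, hN, hNW⟩ : ∃ N : ℕ, 0 < N ∧ 6 * n * W ≤ N := by
    refine ⟨⌈6 * n * W⌉₊ + 1, Nat.succ_pos _, ?_⟩
    have := Nat.le_ceil (6 * n * W)
    push_cast
    linarith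
  have hNR : (0 : ℝ) < N := by exact_mod_cast hN
  obtain ⟨F, hF⟩ := exists_step hRt T hτ hw hN
  set y : ℕ → Ω → V → ℕ := fun t ω v => ⌊(N : ℝ) * z t ω v⌋₊ with hy
  have hy_root : ∀ t ω, y t ω T.root = N * k := by
    intro t ω
    simp only [hy, hzr]
    rw [← Nat.cast_mul, Nat.floor_natCast]
  have hy_le : ∀ t ω v, (y t ω v : ℝ) ≤ N * z t ω v := fun t ω v =>
    Nat.floor_le (mul_nonneg hNR.le (hz0 t ω v))
  have hyS : ∀ t ω, T.SupA (fun v => (y t ω v : ℝ)) := by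
    intro t ω u
    have h1 : ((∑ v ∈ T.ch u, y t ω v : ℕ) : ℝ) ≤ N * z t ω u := by
      push_cast
      calc ∑ v ∈ T.ch u, (y t ω v : ℝ) ≤ ∑ v ∈ T.ch u, N * z t ω v :=
            Finset.sum_le_sum fun v _ => hy_le t ω v
        _ = N * ∑ v ∈ T.ch u, z t ω v := by rw [Finset.mul_sum]
        _ ≤ N * z t ω u := mul_le_mul_of_nonneg_left (hzS t ω u) hNR.le
    have h2 : ∑ v ∈ T.ch u, y t ω v ≤ y t ω u := Nat.le_floor h1
    show ∑ v ∈ T.ch u, (y t ω v : ℝ) ≤ (y t ω u : ℝ)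
    exact_mod_cast h2
  have hyA : ∀ t, P.Ad t (y t) := by
    intro t a b hab
    have := hzA t a b hab
    simp only [hy, this]
  set y0 : V → ℕ := fun v => if v = T.root then N * k else 0 with hy0
  set Z0 : V → Fin N → ℕ := fun v _ => if v = T.root then k else 0 with hZ0
  have hG0 : GoodZ T N y0 Z0 := by
    refine ⟨fun v => ?_, fun u m => ?_⟩
    · by_cases hv : v = T.root
      · refine ⟨by simp [hy0, hZ0, hv], fun m => ?_⟩
        simp [hy0, hZ0, hv, Nat.mul_div_cancel_left k hN]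
      · refine ⟨by simp [hy0, hZ0, hv], fun m => ?_⟩
        simp [hy0, hZ0, hv]
    · have : ∑ v ∈ T.ch u, Z0 v m = 0 := by
        refine Finset.sum_eq_zero fun v hv => ?_
        have hv' : v ≠ T.root := (Finset.mem_filter.1 hv).2.1
        simp [hZ0, hv']
      rw [this]
      exact Nat.zero_le _
  set G : ℕ → Ω → V → Fin N → ℕ := fam F y0 Z0 y with hG
  have hG_zero : ∀ ω, G 0 ω = F y0 (y 0 ω) Z0 := fun ω => rfl
  have hG_succ : ∀ t ω, G (t + 1) ω = F (y t ω) (y (t + 1) ω) (G t ω) := fun t ω => rfl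
  have hGood : ∀ t ω, GoodZ T N (y t ω) (G t ω) := by
    intro t ω
    induction t with
    | zero =>
      rw [hG_zero]
      exact (hF y0 (y 0 ω) Z0 hG0 (by rw [hy_root]; simp [hy0]) (hyS 0 ω)).1
    | succ t ih =>
      rw [hG_succ]
      exact (hF _ _ _ ih (by rw [hy_root, hy_root]) (hyS (t + 1) ω)).1
  have hCost : ∀ t ω, ∑ m, T.mv wt (fun v => (G t ω v m : ℝ)) (fun v => (G (t + 1) ω v m : ℝ)) ≤
      6 * T.mv wt (fun v => (y t ω v : ℝ)) (fun v => (y (t + 1) ω v : ℝ)) := by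
    intro t ω
    rw [hG_succ]
    exact (hF _ _ _ (hGood t ω) (by rw [hy_root, hy_root]) (hyS (t + 1) ω)).2
  have hGA : ∀ t, P.Ad t (G t) := by
    intro t
    induction t with
    | zero =>
      intro a b hab
      rw [hG_zero, hG_zero, hyA 0 a b hab]
    | succ t ih =>
      intro a b hab
      rw [hG_succ, hG_succ, hyA (t + 1) a b hab, hyA t a b (P.mono t a b hab),
        ih a b (P.mono t a b hab)]
  have hmv : ∀ t ω, T.mv wt (fun v => (y t ω v : ℝ)) (fun v => (y (t + 1) ω v : ℝ)) ≤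
      N * T.mv wt (z t ω) (z (t + 1) ω) + W := by
    intro t ω
    simp only [Tr.mv, hW, Finset.mul_sum, ← Finset.sum_add_distrib]
    refine Finset.sum_le_sum fun v _ => ?_
    have h1 := abs_floor_sub (mul_nonneg hNR.le (hz0 t ω v)) (mul_nonneg hNR.le (hz0 (t + 1) ω v))
    rw [← mul_sub, abs_mul, abs_of_pos hNR] at h1
    have h2 := mul_le_mul_of_nonneg_left h1 (hw.1 v).le
    calc wt v * |((y (t + 1) ω v : ℕ) : ℝ) - (y t ω v : ℕ)| ≤
          wt v * (N * |z (t + 1) ω v - z t ω v| + 1) := h2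
      _ = N * (wt v * |z (t + 1) ω v - z t ω v|) + wt v := by ring
  -- cost of the copy `m`
  set c : Fin N → Ω → ℝ := fun m ω => ∑ t ∈ range n,
    (K * T.mv wt (fun v => (G t ω v m : ℝ)) (fun v => (G (t + 1) ω v m : ℝ)) +
      ∑ v ∈ T.nr, D t ω v * G (t + 1) ω v m) with hc
  set R : Ω → ℝ := fun ω => ∑ t ∈ range n,
    (6 * K * T.mv wt (z t ω) (z (t + 1) ω) + ∑ v ∈ T.nr, D t ω v * z (t + 1) ω v) with hR
  have hpt : ∀ ω, ∑ m, c m ω ≤ N * R ω + N * K := by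
    intro ω
    have h1 : ∀ t, ∑ m, (K * T.mv wt (fun v => (G t ω v m : ℝ)) (fun v => (G (t + 1) ω v m : ℝ)) +
        ∑ v ∈ T.nr, D t ω v * G (t + 1) ω v m) ≤
        N * (6 * K * T.mv wt (z t ω) (z (t + 1) ω) + ∑ v ∈ T.nr, D t ω v * z (t + 1) ω v) +
          6 * K * W := by
      intro t
      rw [Finset.sum_add_distrib, ← Finset.mul_sum, Finset.sum_comm]
      have h2 := mul_le_mul_of_nonneg_left ((hCost t ω).trans
        (mul_le_mul_of_nonneg_left (hmv t ω) (by norm_num : (0 : ℝ) ≤ 6))) hK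
      have h3 : ∑ v ∈ T.nr, ∑ m, D t ω v * (G (t + 1) ω v m : ℝ) ≤
          N * ∑ v ∈ T.nr, D t ω v * z (t + 1) ω v := by
        rw [Finset.mul_sum]
        refine Finset.sum_le_sum fun v _ => ?_
        rw [← Finset.mul_sum]
        have h4 : ∑ m, (G (t + 1) ω v m : ℝ) = y (t + 1) ω v := by
          exact_mod_cast ((hGood (t + 1) ω).1 v).1
        rw [h4]
        have := mul_le_mul_of_nonneg_left (hy_le (t + 1) ω v) (hD0 t ω v)
        linarith
      nlinarith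
    calc ∑ m, c m ω = ∑ t ∈ range n, ∑ m,
          (K * T.mv wt (fun v => (G t ω v m : ℝ)) (fun v => (G (t + 1) ω v m : ℝ)) +
            ∑ v ∈ T.nr, D t ω v * G (t + 1) ω v m) := by
          simp only [hc]
          rw [Finset.sum_comm]
      _ ≤ ∑ t ∈ range n, (N * (6 * K * T.mv wt (z t ω) (z (t + 1) ω) +
            ∑ v ∈ T.nr, D t ω v * z (t + 1) ω v) + 6 * K * W) := Finset.sum_le_sum fun t _ => h1 t
      _ = N * R ω + n * (6 * K * W) := by
          rw [Finset.sum_add_distrib, ← Finset.mul_sum]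
          simp [hR]
      _ ≤ N * R ω + N * K := by nlinarith
  have hsum : ∑ m, P.Ex (c m) ≤ ∑ _m : Fin N, (P.Ex R + K) := by
    rw [← hES (Fin N) univ c]
    have h1 := (hE (fun ω => ∑ m, c m ω) (fun ω => N * R ω + N * K) 0).2.2.2 hpt
    rw [(hE (fun ω => N * R ω) (fun _ => N * K) 0).1, (hE R R N).2.1,
      (hE R R (N * K)).2.2.1] at h1
    simp only [Finset.sum_const, Finset.card_univ, Fintype.card_fin, nsmul_eq_mul]
    linarith
  have : Nonempty (Fin N) := ⟨⟨0, hN⟩⟩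
  obtain ⟨m, -, hm⟩ := Finset.exists_le_of_sum_le Finset.univ_nonempty hsum
  refine ⟨fun t ω v => G t ω v m, fun t a b hab => ?_, fun t ω => ?_, fun t ω u => ?_,
    fun t ω v => ⟨fun h => ?_, fun h => ?_⟩, hm⟩
  · simp only [hGA t a b hab]
  · have h1 := (hGood t ω).1 T.root
    rw [hy_root] at h1
    exact bal_root hN h1 m
  · show ∑ v ∈ T.ch u, (G t ω v m : ℝ) ≤ (G t ω u m : ℝ)
    exact_mod_cast (hGood t ω).2 u m
  · have h1 : G t ω v m ≤ y t ω v := by
      rw [← ((hGood t ω).1 v).1]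
      exact Finset.single_le_sum (f := G t ω v) (fun _ _ => Nat.zero_le _) (mem_univ m)
    have h2 : (0 : ℝ) < y t ω v := by exact_mod_cast lt_of_lt_of_le h h1
    have h3 := lt_of_lt_of_le h2 (hy_le t ω v)
    exact (mul_pos_iff_of_pos_left hNR).1 h3
  · have h1 : N ≤ y t ω v := Nat.le_floor (by nlinarith)
    have h2 : 1 ≤ y t ω v / N := (Nat.le_div_iff_mul_le hN).2 (by simpa using h1)
    exact h2.trans (((hGood t ω).1 v).2 m).1

end Crest.Agent.KS
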