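import Crest.Agent.KS.DefsP

/-! Row 314 (k-server), part P: rounding of the whole tree (RT). -/

set_option autoImplicit false

namespace Crest.Agent.KS

open Finset
open scoped Classical

theorem RT_proof (hTre : TreStmt) (hRb : RbStmt) : RtStmt := by
  intro V _ T τ wt hτ hW N hN y y' Z hZ hroot hS
  obtain ⟨hind, hsum, -⟩ := hTre V T
  have hS' : ∀ u, ∑ v ∈ T.ch u, y' v ≤ y' u := by
    intro u
    have h : ∑ v ∈ T.ch u, (y' v : ℝ) ≤ (y' u : ℝ) := hS u
    exact_mod_cast h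
  have hF : ∀ (u : V) (U' : Fin N → ℕ), ∃ F : V → Fin N → ℕ, Bal N (y' u) U' →
      (∀ v ∈ T.ch u, Bal N (y' v) (F v)) ∧ (∀ n, ∑ v ∈ T.ch u, F v n ≤ U' n) ∧
        ∑ v ∈ T.ch u, ∑ n, |(F v n : ℝ) - Z v n| ≤
          3 * ∑ v ∈ T.ch u, |(y' v : ℝ) - y v| + 2 * ∑ n, |(U' n : ℝ) - Z u n| := by
    intro u U'
    by_cases hb : Bal N (y' u) U'
    · obtain ⟨F, hF⟩ := hRb N hN V (T.ch u) y y' Z (y' u) (Z u) U' (fun v _ => hZ.1 v)
        (fun n => hZ.2 u n) hb (hS' u)
      exact ⟨F, fun _ => hF⟩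
    · exact ⟨Z, fun h => absurd h hb⟩
  choose F hF using hF
  let G : ℕ → V → Fin N → ℕ := fun d =>
    Nat.rec (motive := fun _ => V → Fin N → ℕ) (fun _ => Z T.root)
      (fun _ g v => F (T.par v) (g (T.par v)) v) d
  let Z' : V → Fin N → ℕ := fun v => G (T.dep v) v
  have hr : Z' T.root = Z T.root := by
    show G (T.dep T.root) T.root = _
    rw [T.dep_root]; rfl
  have hs : ∀ v, v ≠ T.root → Z' v = F (T.par v) (Z' (T.par v)) v := by
    intro v hv
    show G (T.dep v) v = F (T.par v) (G (T.dep (T.par v)) (T.par v)) v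
    rw [T.dep_par v hv]
  have hmem : ∀ u v, v ∈ T.ch u ↔ v ≠ T.root ∧ T.par v = u := by
    intro u v; simp [Tr.ch]
  have hB : ∀ v, Bal N (y' v) (Z' v) := by
    refine hind _ ?_ ?_
    · rw [hr, hroot]; exact hZ.1 _
    · intro v hv hp
      rw [hs v hv]
      exact (hF _ _ hp).1 v ((hmem _ _).2 ⟨hv, rfl⟩)
  have hch : ∀ u, ∀ v ∈ T.ch u, Z' v = F u (Z' u) v := by
    intro u v hv
    obtain ⟨h1, h2⟩ := (hmem _ _).1 hv
    rw [hs v h1, h2]
  refine ⟨Z', ⟨hB, ?_⟩, ?_⟩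
  · intro u n
    rw [Finset.sum_congr rfl (fun v hv => by rw [hch u v hv])]
    exact (hF u _ (hB u)).2.1 n
  · set A : V → ℝ := fun v => ∑ n, |(Z' v n : ℝ) - Z v n| with hA
    set a : V → ℝ := fun v => |(y' v : ℝ) - y v| with ha
    have hA0 : ∀ v, 0 ≤ A v := fun v => Finset.sum_nonneg fun n _ => abs_nonneg _
    have hAr : A T.root = 0 := by simp [hA, hr]
    have hL : ∑ n, T.mv wt (fun v => (Z v n : ℝ)) (fun v => (Z' v n : ℝ)) =
        ∑ v ∈ T.nr, wt v * A v := by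
      unfold Tr.mv
      rw [Finset.sum_comm]
      refine Finset.sum_congr rfl fun v _ => ?_
      rw [hA, Finset.mul_sum]
    have hR : T.mv wt (fun v => (y v : ℝ)) (fun v => (y' v : ℝ)) = ∑ v ∈ T.nr, wt v * a v := rfl
    have hall : ∑ u, wt u * A u = ∑ v ∈ T.nr, wt v * A v := by
      symm
      apply Finset.sum_subset (Finset.subset_univ _)
      intro v _ hv
      have : v = T.root := by
        by_contra h
        exact hv (by simp [Tr.nr, h])
      rw [this, hAr, mul_zero]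
    have hτ0 : (0 : ℝ) < τ := by linarith
    have hnode : ∀ u, τ * ∑ v ∈ T.ch u, wt v * A v ≤
        3 * (τ * ∑ v ∈ T.ch u, wt v * a v) + 2 * (wt u * A u) := by
      intro u
      have h1 : τ * ∑ v ∈ T.ch u, wt v * A v = wt u * ∑ v ∈ T.ch u, A v := by
        rw [Finset.mul_sum, Finset.mul_sum]
        refine Finset.sum_congr rfl fun v hv => ?_
        obtain ⟨h1, h2⟩ := (hmem _ _).1 hv
        rw [← mul_assoc, hW.2 v h1, h2]
      have h2 : τ * ∑ v ∈ T.ch u, wt v * a v = wt u * ∑ v ∈ T.ch u, a v := by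
        rw [Finset.mul_sum, Finset.mul_sum]
        refine Finset.sum_congr rfl fun v hv => ?_
        obtain ⟨h1, h2⟩ := (hmem _ _).1 hv
        rw [← mul_assoc, hW.2 v h1, h2]
      have h3 : ∑ v ∈ T.ch u, A v ≤ 3 * ∑ v ∈ T.ch u, a v + 2 * A u := by
        have h := (hF u _ (hB u)).2.2
        have e : ∑ v ∈ T.ch u, A v = ∑ v ∈ T.ch u, ∑ n, |(F u (Z' u) v n : ℝ) - Z v n| := by
          refine Finset.sum_congr rfl fun v hv => ?_
          simp only [hA]
          rw [hch u v hv]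
        rw [e]; exact h
      rw [h1, h2]
      have h4 := mul_le_mul_of_nonneg_left h3 (hW.1 u).le
      linarith
    have htot : τ * ∑ v ∈ T.nr, wt v * A v ≤
        3 * (τ * ∑ v ∈ T.nr, wt v * a v) + 2 * ∑ v ∈ T.nr, wt v * A v := by
      have h := Finset.sum_le_sum (s := univ) fun u _ => hnode u
      rw [Finset.sum_add_distrib, ← Finset.mul_sum, ← Finset.mul_sum, ← Finset.mul_sum,
        ← Finset.mul_sum, hall, ← hsum, ← hsum] at h
      exact h
    rw [hL, hR]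
    have hS0 : 0 ≤ ∑ v ∈ T.nr, wt v * A v :=
      Finset.sum_nonneg fun v _ => mul_nonneg (hW.1 v).le (hA0 v)
    have hs0 : 0 ≤ ∑ v ∈ T.nr, wt v * a v :=
      Finset.sum_nonneg fun v _ => mul_nonneg (hW.1 v).le (abs_nonneg _)
    set S := ∑ v ∈ T.nr, wt v * A v
    set m := ∑ v ∈ T.nr, wt v * a v
    by_contra hc
    push Not at hc
    nlinarith [mul_pos hτ0 (sub_pos.2 hc), mul_nonneg (sub_nonneg.2 hτ) hS0]

end Crest.Agent.KS
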