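import Crest.Agent.KS.DefsP

/-! Row 314 (k-server), task TRE: basic facts on trees. -/

set_option autoImplicit false

namespace Crest.Agent.KS

open Finset
open scoped Classical

namespace TRE

variable {V : Type} [Fintype V] (T : Tr V)

omit [Fintype V] in
theorem ind (Q : V → Prop) (h0 : Q T.root) (h1 : ∀ v, v ≠ T.root → Q (T.par v) → Q v) (v : V) :
    Q v := by
  have : ∀ n : ℕ, ∀ v, T.dep v = n → Q v := by
    intro n
    induction n with
    | zero =>
      intro v hv
      by_cases h : v = T.root
      · rw [h]; exact h0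
      · have := T.dep_par v h; omega
    | succ n ih =>
      intro v hv
      by_cases h : v = T.root
      · rw [h]; exact h0
      · have := T.dep_par v h
        exact h1 v h (ih _ (by omega))
  exact this _ v rfl

theorem sum_nr (f : V → ℝ) : ∑ v ∈ T.nr, f v = ∑ u, ∑ v ∈ T.ch u, f v := by
  unfold Tr.nr Tr.ch
  simp only [Finset.sum_filter]
  rw [Finset.sum_comm]
  refine Finset.sum_congr rfl fun v _ => ?_
  by_cases h : v = T.root
  · simp [h]
  · simp [h]

omit [Fintype V] in
theorem iter_root (n : ℕ) : T.par^[n] T.root = T.root := Function.iterate_fixed T.par_root n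

omit [Fintype V] in
theorem anc_iff (u x : V) : T.anc u x ↔ u = x ∨ (x ≠ T.root ∧ T.anc u (T.par x)) := by
  constructor
  · rintro ⟨n, hn⟩
    cases n with
    | zero => left; exact hn.symm
    | succ n =>
      by_cases h : x = T.root
      · left; rw [← hn, h, iter_root]
      · right; exact ⟨h, n, by rw [← hn, Function.iterate_succ_apply]⟩
  · rintro (h | ⟨_, n, hn⟩)
    · exact ⟨0, h.symm⟩
    · exact ⟨n + 1, by rw [Function.iterate_succ_apply]; exact hn⟩

omit [Fintype V] in
theorem anc_root (x : V) : T.anc T.root x := by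
  refine ind T (fun x => T.anc T.root x) ⟨0, rfl⟩ (fun v hv ih => ?_) x
  exact (anc_iff T _ _).2 (Or.inr ⟨hv, ih⟩)

omit [Fintype V] in
theorem dep_le (u x : V) (h : T.anc u x) : T.dep u ≤ T.dep x := by
  revert h
  refine ind T (fun x => T.anc u x → T.dep u ≤ T.dep x) ?_ (fun v hv ih h => ?_) x
  · intro h
    rcases (anc_iff T _ _).1 h with h | h
    · rw [h]
    · exact absurd rfl h.1
  · rcases (anc_iff T _ _).1 h with h | h
    · rw [h]
    · have := ih h.2
      have := T.dep_par v hv
      omega

omit [Fintype V] in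
theorem dep_eq (u x : V) (h : T.anc u x) (he : T.dep u = T.dep x) : u = x := by
  rcases (anc_iff T _ _).1 h with h | h
  · exact h
  · have := dep_le T _ _ h.2
    have := T.dep_par x h.1
    omega

/-- indicator of `anc` -/
noncomputable def ia (u x : V) : ℕ := if T.anc u x then 1 else 0

omit [Fintype V] in
theorem ia_root (u : V) : ia T u T.root = if u = T.root then 1 else 0 := by
  unfold ia
  have : T.anc u T.root ↔ u = T.root := by rw [anc_iff]; simp
  simp only [this]

omit [Fintype V] in
theorem ia_step (u x : V) (hx : x ≠ T.root) :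
    ia T u x = (if u = x then 1 else 0) + ia T u (T.par x) := by
  unfold ia
  by_cases h : u = x
  · have h1 : T.anc u x := ⟨0, h.symm⟩
    have h2 : ¬ T.anc u (T.par x) := by
      intro h2
      have := dep_le T _ _ h2
      have := T.dep_par x hx
      rw [h] at *
      omega
    simp only [if_pos h1, if_neg h2, if_pos h]
  · have : T.anc u x ↔ T.anc u (T.par x) := by rw [anc_iff]; simp [h, hx]
    simp only [this, if_neg h, zero_add]

theorem cnt_eq {k : ℕ} (p : Fin k → V) (v : V) : T.cnt p v = ∑ i, ia T v (p i) := by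
  unfold Tr.cnt ia
  rw [Finset.card_filter]

theorem mem_ch (u v : V) : v ∈ T.ch u ↔ v ≠ T.root ∧ T.par v = u := by
  unfold Tr.ch; simp

theorem mem_nr (v : V) : v ∈ T.nr ↔ v ≠ T.root := by
  unfold Tr.nr; simp

theorem ia_split (u x : V) :
    ia T u x = (if x = u then 1 else 0) + ∑ v ∈ T.ch u, ia T v x := by
  refine ind T (fun x => ia T u x = (if x = u then 1 else 0) + ∑ v ∈ T.ch u, ia T v x) ?_
    (fun x hx ih => ?_) x
  · have : ∑ v ∈ T.ch u, ia T v T.root = 0 := by
      refine Finset.sum_eq_zero fun v hv => ?_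
      rw [ia_root, if_neg ((mem_ch T u v).1 hv).1]
    rw [this, ia_root]
    by_cases h : u = T.root
    · simp [h]
    · simp [h, Ne.symm h]
  · have h1 : ∑ v ∈ T.ch u, ia T v x =
        (if T.par x = u then 1 else 0) + ∑ v ∈ T.ch u, ia T v (T.par x) := by
      rw [Finset.sum_congr rfl fun v _ => ia_step T v x hx, Finset.sum_add_distrib]
      congr 1
      rw [Finset.sum_ite_eq' (T.ch u) x (fun _ => 1)]
      simp only [mem_ch, hx, ne_eq, not_false_eq_true, true_and]
    rw [h1, ia_step T u x hx, ih]
    by_cases h : u = x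
    · simp [h]
    · simp [h, Ne.symm h]

theorem path_sum (M : V → ℝ) (x : V) :
    M x = M T.root + ∑ v ∈ T.nr, (M v - M (T.par v)) * (ia T v x : ℝ) := by
  refine ind T (fun x => M x = M T.root + ∑ v ∈ T.nr, (M v - M (T.par v)) * (ia T v x : ℝ)) ?_
    (fun x hx ih => ?_) x
  · have : ∑ v ∈ T.nr, (M v - M (T.par v)) * (ia T v T.root : ℝ) = 0 := by
      refine Finset.sum_eq_zero fun v hv => ?_
      rw [ia_root, if_neg ((mem_nr T v).1 hv)]; simp
    rw [this, add_zero]
  · have h1 : ∑ v ∈ T.nr, (M v - M (T.par v)) * (ia T v x : ℝ) =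
        (M x - M (T.par x)) + ∑ v ∈ T.nr, (M v - M (T.par v)) * (ia T v (T.par x) : ℝ) := by
      have : ∀ v ∈ T.nr, (M v - M (T.par v)) * (ia T v x : ℝ) =
          (if v = x then M v - M (T.par v) else 0) +
            (M v - M (T.par v)) * (ia T v (T.par x) : ℝ) := by
        intro v _
        rw [ia_step T v x hx]
        by_cases h : v = x
        · simp only [if_pos h]; push_cast; ring
        · simp only [if_neg h]; push_cast; ring
      rw [Finset.sum_congr rfl this, Finset.sum_add_distrib,
        Finset.sum_ite_eq' T.nr x (fun v => M v - M (T.par v)), if_pos ((mem_nr T x).2 hx)]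
    rw [h1]
    linarith

end TRE

theorem TRE_proof : TreStmt := by
  intro V _ T
  refine ⟨fun Q h0 h1 v => TRE.ind T Q h0 h1 v, TRE.sum_nr T,
    ⟨fun x => ⟨0, rfl⟩, TRE.anc_root T, TRE.anc_iff T, TRE.dep_le T, TRE.dep_eq T⟩, ?_, ?_, ?_⟩
  · intro k p
    refine ⟨?_, fun u => ?_⟩
    · rw [TRE.cnt_eq]
      have : ∀ i, TRE.ia T T.root (p i) = 1 := fun i => by
        unfold TRE.ia; rw [if_pos (TRE.anc_root T _)]
      simp [this]
    · rw [TRE.cnt_eq, Finset.sum_congr rfl fun i _ => TRE.ia_split T u (p i),
        Finset.sum_add_distrib, Finset.sum_comm]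
      congr 1
      · unfold Tr.park
        rw [Finset.card_filter]
      · exact Finset.sum_congr rfl fun v _ => (TRE.cnt_eq T p v).symm
  · intro k p i v hv x
    rw [TRE.cnt_eq, TRE.cnt_eq, ← Finset.add_sum_erase _ _ (Finset.mem_univ i),
      ← Finset.add_sum_erase _ _ (Finset.mem_univ i), Function.update_self, Function.update_self,
      TRE.ia_step T x v hv]
    have : ∑ j ∈ univ.erase i, TRE.ia T x (Function.update p i v j) =
        ∑ j ∈ univ.erase i, TRE.ia T x (Function.update p i (T.par v) j) := by
      refine Finset.sum_congr rfl fun j hj => ?_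
      rw [Function.update_of_ne (Finset.ne_of_mem_erase hj),
        Function.update_of_ne (Finset.ne_of_mem_erase hj)]
    rw [this]
    omega
  · intro k p M
    rw [Finset.sum_congr rfl fun i _ => TRE.path_sum T M (p i), Finset.sum_add_distrib,
      Finset.sum_comm]
    congr 1
    · simp
    · refine Finset.sum_congr rfl fun v _ => ?_
      rw [TRE.cnt_eq, ← Finset.mul_sum]
      push_cast
      rfl

end Crest.Agent.KS
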