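import Crest.Agent.KS.DefsP

/-! Row 314 (k-server), part P: moving the surplus servers up. -/

set_option autoImplicit false

namespace Crest.Agent.KS

open Finset
open scoped Classical

theorem UP_proof (hTre : TreStmt) : UpStmt := by
  intro V _ T k Z hZ hS
  obtain ⟨-, -, -, hcnt, hupd, -⟩ := hTre V T
  have key : ∀ (m : ℕ) (p : Fin k → V), ∑ v, (T.cnt p v - Z v) = m →
      ∃ p₁ : Fin k → V, (∀ v, T.cnt p₁ v = min (T.cnt p v) (Z v)) ∧
        ∀ (wt : V → ℝ) (E : Type) [PseudoMetricSpace E] (a : V → E),
          (∀ v, v ≠ T.root → 0 < T.cnt p v → dist (a v) (a (T.par v)) ≤ wt v) →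
          ∑ i, dist (a (p i)) (a (p₁ i)) ≤ ∑ v ∈ T.nr, wt v * ((T.cnt p v : ℝ) - T.cnt p₁ v) := by
    intro m
    induction m using Nat.strong_induction_on with
    | _ m ih =>
      intro p hm
      by_cases hall : ∀ v, T.cnt p v ≤ Z v
      · refine ⟨p, fun v => (min_eq_left (hall v)).symm, ?_⟩
        intro wt E _ a _
        simp
      · push Not at hall
        obtain ⟨v, hv, hmax⟩ := Finset.exists_max_image (univ.filter (fun v => Z v < T.cnt p v))
          T.dep (by obtain ⟨v, hv⟩ := hall; exact ⟨v, by simp [hv]⟩)
        have hv' : Z v < T.cnt p v := by simpa using hv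
        have hvr : v ≠ T.root := by
          intro h
          rw [h, (hcnt k p).1, hZ] at hv'
          exact lt_irrefl _ hv'
        have hch : ∀ w ∈ T.ch v, T.cnt p w ≤ Z w := by
          intro w hw
          by_contra hlt
          push Not at hlt
          have h1 := hmax w (by simp [hlt])
          have hw' : w ≠ T.root ∧ T.par w = v := by simpa [Tr.ch] using hw
          have h2 := T.dep_par w hw'.1
          rw [hw'.2] at h2
          omega
        have h1 : ∑ w ∈ T.ch v, T.cnt p w ≤ ∑ w ∈ T.ch v, Z w := Finset.sum_le_sum hch
        have h2 : ∑ w ∈ T.ch v, Z w ≤ Z v := by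
          have : ∑ w ∈ T.ch v, (Z w : ℝ) ≤ Z v := hS v
          exact_mod_cast this
        have h3 := (hcnt k p).2 v
        have hpark : 0 < Tr.park p v := by omega
        obtain ⟨i, hi⟩ : ∃ i, p i = v := by
          unfold Tr.park at hpark
          obtain ⟨i, hi⟩ := Finset.card_pos.1 hpark
          exact ⟨i, by simpa using hi⟩
        set p' : Fin k → V := Function.update p i (T.par v) with hp'
        have hpe : Function.update p i v = p := by
          rw [← hi]; exact Function.update_eq_self i p
        have hc : ∀ x, T.cnt p x = T.cnt p' x + if x = v then 1 else 0 := by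
          intro x
          have := hupd k p i v hvr x
          rw [hpe] at this
          exact this
        have hlt : ∑ x, (T.cnt p' x - Z x) < m := by
          rw [← hm]
          apply Finset.sum_lt_sum
          · intro x _
            have := hc x
            split_ifs at this <;> omega
          · refine ⟨v, mem_univ _, ?_⟩
            have := hc v
            rw [if_pos rfl] at this
            omega
        obtain ⟨p₁, hp₁, hcost⟩ := ih _ hlt p' rfl
        refine ⟨p₁, ?_, ?_⟩
        · intro x
          rw [hp₁ x]
          have := hc x
          split_ifs at this with hx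
          · subst hx; omega
          · omega
        · intro wt E _ a ha
          have h4 := hcost wt E a (fun x hx hpos => ha x hx (by have := hc x; omega))
          have h5 : ∑ j, dist (a (p j)) (a (p' j)) = dist (a v) (a (T.par v)) := by
            rw [Finset.sum_eq_single i]
            · rw [hi, hp', Function.update_self]
            · intro j _ hj
              rw [hp', Function.update_of_ne hj, dist_self]
            · intro h; exact absurd (mem_univ i) h
          have h6 : ∑ j, dist (a (p j)) (a (p₁ j)) ≤
              ∑ j, dist (a (p j)) (a (p' j)) + ∑ j, dist (a (p' j)) (a (p₁ j)) := by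
            rw [← Finset.sum_add_distrib]
            exact Finset.sum_le_sum fun j _ => dist_triangle _ _ _
          have h7 : ∑ x ∈ T.nr, wt x * ((T.cnt p x : ℝ) - T.cnt p₁ x) =
              ∑ x ∈ T.nr, wt x * ((T.cnt p' x : ℝ) - T.cnt p₁ x) + wt v := by
            have hvn : v ∈ T.nr := by simp [Tr.nr, hvr]
            have h8 : wt v = ∑ x ∈ T.nr, if x = v then wt x else 0 := by
              rw [Finset.sum_ite_eq' T.nr v wt, if_pos hvn]
            rw [h8, ← Finset.sum_add_distrib]
            refine Finset.sum_congr rfl fun x _ => ?_
            rw [hc x]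
            split_ifs <;> push_cast <;> ring
          have h9 := ha v hvr (by omega)
          linarith
  intro p
  exact key _ p rfl

end Crest.Agent.KS
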