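import Crest.Agent.KS.Adp
import Crest.Agent.KS.Bay
import Crest.Agent.KS.Down
import Crest.Agent.KS.Glue
import Crest.Agent.KS.Lab
import Crest.Agent.KS.Mt
import Crest.Agent.KS.Mvq
import Crest.Agent.KS.Phy
import Crest.Agent.KS.Rb
import Crest.Agent.KS.Rb1
import Crest.Agent.KS.Rs
import Crest.Agent.KS.Rt
import Crest.Agent.KS.Tre
import Crest.Agent.KS.Up

/-! Row 314: part P assembled. -/

set_option autoImplicit false

namespace Crest.Agent.KS

theorem P_proof (hH : HStmt) (hE : EStmt) :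
    ∃ C : ℝ, ∀ k : ℕ, 2 ≤ k → Bayes k (C * Real.log (k + 1) ^ 2) := by
  obtain ⟨C, hC⟩ := GLUE_proof hE
    (PHY_proof BAY_proof TRE_proof hH (RS_proof BAY_proof (RT_proof TRE_proof (RB_proof RB1_proof)))
      (MT_proof TRE_proof (UP_proof TRE_proof) (DOWN_proof TRE_proof))) LAB_proof MVQ_proof
  exact ⟨C, fun k hk => ADP_proof k _ (hC k hk)⟩

end Crest.Agent.KS
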