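import Crest.Agent.KS.Det

/-! The repeat/reset trick: the additive constant of the Bayesian bound disappears (ratio doubles). -/

namespace Crest.Agent.KS
open Crest.LogicCS.KServer Finset

section general
variable {X : Type*} [MetricSpace X] {k : ℕ}

/-- `N` cycles through the server indices -/
def cyc (k : ℕ) : ℕ → List (Fin k)
  | 0 => []
  | N + 1 => List.finRange k ++ cyc k N

theorem covered_of_dc_lt (f : List X → Fin k) (δ : ℝ) (hδ : ∀ x y : X, dist x y < δ → x = y)
    (past : List X) (c : Fin k → X) (l : List X) (h : dc f past c l < δ) :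
    ∀ r ∈ l, ∃ i, c i = r := by
  induction l generalizing past with
  | nil => simp
  | cons r rest ih =>
    simp only [dc] at h
    have h0 := dc_nonneg f (past ++ [r]) (Function.update c (f (past ++ [r])) r) rest
    have h1 : c (f (past ++ [r])) = r := hδ _ _ (by linarith)
    have h2 : Function.update c (f (past ++ [r])) r = c := by
      conv_lhs => rw [← h1]
      simp only [h1]
      rw [Function.update_eq_self_iff]; exact h1.symm
    rw [h2] at h
    have h3 : 0 ≤ dist (c (f (past ++ [r]))) r := dist_nonneg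
    intro r' hr'
    rcases List.mem_cons.1 hr' with rfl | hr'
    · exact ⟨_, h1⟩
    · exact ih (past ++ [r]) (by linarith) r' hr'

theorem reset_alt (f : List X → Fin k) (δ : ℝ) (hδ : ∀ x y : X, dist x y < δ → x = y)
    (s : Fin k → X) (hs : Function.Injective s) (N : ℕ) (past : List X) (c : Fin k → X) :
    N * δ ≤ dc f past c ((cyc k N).map s) ∨ ∃ τ : Equiv.Perm (Fin k),
      ∑ a, dist (dend f past c ((cyc k N).map s) a) (s (τ a)) ≤ dc f past c ((cyc k N).map s) := by
  induction N generalizing past c with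
  | zero => left; simp [cyc, dc]
  | succ N ih =>
    by_cases h : dc f past c ((List.finRange k).map s) < δ
    · right
      have hcov := covered_of_dc_lt f δ hδ past c _ h
      have hex : ∀ i, ∃ a, c a = s i := fun i => hcov (s i) (by simp)
      choose g hg using hex
      have hginj : Function.Injective g := fun a b hab => hs (by rw [← hg a, ← hg b, hab])
      let e : Equiv.Perm (Fin k) := Equiv.ofBijective g (Finite.injective_iff_bijective.1 hginj)
      refine ⟨e.symm, ?_⟩
      have hc : ∀ a, s (e.symm a) = c a := fun a => by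
        rw [← hg (e.symm a)]
        congr 1
        exact e.apply_symm_apply a
      simp only [hc]
      have := sum_dist_dend_le f past c ((cyc k (N + 1)).map s)
      simpa only [dist_comm] using this
    · push Not at h
      simp only [cyc, List.map_append]
      rw [dc_append, dend_append]
      have h0 := dc_nonneg f past c ((List.finRange k).map s)
      rcases ih (past ++ (List.finRange k).map s) (dend f past c ((List.finRange k).map s)) with
        h1 | ⟨τ, h1⟩
      · left; push_cast; linarith
      · right; exact ⟨τ, by linarith⟩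

theorem pathCost_reset (s : Fin k → X) (l : List (Fin k)) (c : Fin k → X) :
    pathCost c (l.map fun i => (s i, i)) + ∑ a, dist (pend c (l.map fun i => (s i, i)) a) (s a) =
      ∑ a, dist (c a) (s a) := by
  induction l generalizing c with
  | nil => simp [pathCost, pend]
  | cons i rest ih =>
    simp only [List.map_cons, pathCost, pend]
    have h1 := ih (Function.update c i (s i))
    have h2 := sum_dist_update_le c s i (s i)
    rw [dist_self] at h2
    linarith

omit [MetricSpace X] in
theorem pend_reset (s : Fin k → X) (l : List (Fin k)) (c : Fin k → X) (a : Fin k)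
    (h : a ∈ l ∨ c a = s a) : pend c (l.map fun i => (s i, i)) a = s a := by
  induction l generalizing c with
  | nil => simpa [pend] using h
  | cons i rest ih =>
    simp only [List.map_cons, pend]
    apply ih
    by_cases hai : a = i
    · right; subst hai; simp
    · rcases h with h | h
      · left; simpa [hai] using h
      · right; rw [Function.update_of_ne hai]; exact h

/-- one round of the repeated game: a path followed by the reset cycles -/
def round (s : Fin k → X) (N : ℕ) (π : List (X × Fin k)) : List (X × Fin k) :=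
  π ++ (cyc k (N + 1)).map fun i => (s i, i)

omit [MetricSpace X] in
theorem pend_round (s : Fin k → X) (N : ℕ) (π : List (X × Fin k)) : pend s (round s N π) = s := by
  funext a
  rw [round, pend_append]
  exact pend_reset s _ _ a (Or.inl (by simp [cyc]))

theorem pathCost_round (s : Fin k → X) (N : ℕ) (π : List (X × Fin k)) :
    pathCost s (round s N π) ≤ 2 * pathCost s π := by
  rw [round, pathCost_append]
  have h1 := pathCost_reset s (cyc k (N + 1)) (pend s π)
  have h2 := sum_dist_pend_le s π
  have h3 : 0 ≤ ∑ a, dist (pend (pend s π) ((cyc k (N + 1)).map fun i => (s i, i)) a) (s a) :=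
    Finset.sum_nonneg fun _ _ => dist_nonneg
  simp only [dist_comm (s _)] at h2
  linarith

/-- the concatenation of rounds -/
def rounds {F : Type*} (s : Fin k → X) (N : ℕ) (π : F → List (X × Fin k)) :
    List F → List (X × Fin k)
  | [] => []
  | a :: l => round s N (π a) ++ rounds s N π l

theorem sum_prod_succ {F : Type*} [Fintype F] (μ : F → ℝ) (M : ℕ) (G : (Fin (M + 1) → F) → ℝ) :
    ∑ ω : Fin (M + 1) → F, (∏ m, μ (ω m)) * G ω =
      ∑ a, μ a * ∑ ω : Fin M → F, (∏ m, μ (ω m)) * G (Fin.cons a ω) := by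
  rw [← (Fin.consEquiv fun _ : Fin (M + 1) => F).sum_comp, Fintype.sum_prod_type]
  refine Finset.sum_congr rfl fun a _ => ?_
  rw [Finset.mul_sum]
  refine Finset.sum_congr rfl fun ω _ => ?_
  have : (Fin.consEquiv fun _ : Fin (M + 1) => F) (a, ω) = Fin.cons a ω := rfl
  rw [this]
  simp only [Fin.prod_univ_succ, Fin.cons_zero, Fin.cons_succ]
  ring

theorem sum_prod_one {F : Type*} [Fintype F] (μ : F → ℝ) (hμ : ∑ a, μ a = 1) (M : ℕ) :
    ∑ ω : Fin M → F, ∏ m, μ (ω m) = 1 := by
  induction M with
  | zero => simp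
  | succ M ih =>
    have := sum_prod_succ μ M fun _ => 1
    simp only [mul_one, ih, hμ] at this
    exact this

theorem opt_rounds {F : Type*} [Fintype F] (μ : F → ℝ) (hμ0 : ∀ a, 0 ≤ μ a) (hμ : ∑ a, μ a = 1)
    (s : Fin k → X) (N : ℕ) (π : F → List (X × Fin k)) (M : ℕ) :
    ∑ ω : Fin M → F, (∏ m, μ (ω m)) * pathCost s (rounds s N π (List.ofFn ω)) ≤
      M * (2 * ∑ a, μ a * pathCost s (π a)) := by
  induction M with
  | zero => simp [rounds, pathCost]
  | succ M ih =>
    rw [sum_prod_succ]
    have h1 : ∀ a, μ a * ∑ ω : Fin M → F, (∏ m, μ (ω m)) *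
        pathCost s (rounds s N π (List.ofFn (Fin.cons a ω : Fin (M + 1) → F))) ≤
        μ a * (2 * pathCost s (π a) + M * (2 * ∑ a, μ a * pathCost s (π a))) := fun a => by
      refine mul_le_mul_of_nonneg_left ?_ (hμ0 a)
      simp only [List.ofFn_succ, Fin.cons_zero, Fin.cons_succ, rounds, pathCost_append, pend_round,
        mul_add, Finset.sum_add_distrib, ← Finset.sum_mul, sum_prod_one μ hμ, one_mul]
      have := pathCost_round s N (π a)
      linarith
    refine (Finset.sum_le_sum fun a _ => h1 a).trans (le_of_eq ?_)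
    simp only [mul_add, Finset.sum_add_distrib, ← Finset.sum_mul, hμ, one_mul]
    rw [Finset.mul_sum]
    push_cast
    have : ∑ a, μ a * (2 * pathCost s (π a)) = ∑ a, 2 * (μ a * pathCost s (π a)) :=
      Finset.sum_congr rfl fun a _ => by ring
    rw [this]; ring

theorem alg_rounds {F : Type*} [Fintype F] (μ : F → ℝ) (hμ0 : ∀ a, 0 ≤ μ a) (hμ : ∑ a, μ a = 1)
    (s : Fin k → X) (N : ℕ) (π : F → List (X × Fin k)) (V : ℝ)
    (hV : ∀ f : List X → Fin k, V ≤ ∑ a, μ a * dc f [] s ((π a).map Prod.fst))
    (hR : ∀ (f : List X → Fin k) (past : List X) (c : Fin k → X), ∃ τ : Equiv.Perm (Fin k),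
      ∑ a, dist (dend f past c ((cyc k (N + 1)).map s) a) (s (τ a)) ≤
        dc f past c ((cyc k (N + 1)).map s))
    (M : ℕ) (f : List X → Fin k) (past : List X) (c : Fin k → X) (τ : Equiv.Perm (Fin k)) :
    M * V ≤ ∑ ω : Fin M → F, (∏ m, μ (ω m)) *
      dc f past c ((rounds s N π (List.ofFn ω)).map Prod.fst) + ∑ a, dist (c a) (s (τ a)) := by
  induction M generalizing past c τ with
  | zero =>
    simp only [Nat.cast_zero, zero_mul, List.ofFn_zero, rounds, List.map_nil, dc, mul_zero,
      Finset.sum_const_zero, zero_add]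
    exact Finset.sum_nonneg fun _ _ => dist_nonneg
  | succ M ih =>
    rw [sum_prod_succ]
    have h1 : ∀ a, μ a * (dc f past c ((π a).map Prod.fst) + M * V) ≤
        μ a * ∑ ω : Fin M → F, (∏ m, μ (ω m)) *
        dc f past c ((rounds s N π (List.ofFn (Fin.cons a ω : Fin (M + 1) → F))).map Prod.fst) :=
      fun a => by
      refine mul_le_mul_of_nonneg_left ?_ (hμ0 a)
      have hm : ((cyc k (N + 1)).map fun i => (s i, i)).map Prod.fst = (cyc k (N + 1)).map s := by
        simp [Function.comp_def]
      simp only [List.ofFn_succ, Fin.cons_zero, Fin.cons_succ, rounds, round, List.map_append, hm,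
        dc_append, dend_append,
        mul_add, Finset.sum_add_distrib, ← Finset.sum_mul, sum_prod_one μ hμ, one_mul]
      obtain ⟨τ', hτ'⟩ := hR f (past ++ (π a).map Prod.fst) (dend f past c ((π a).map Prod.fst))
      have := ih (past ++ ((π a).map Prod.fst ++ (cyc k (N + 1)).map s))
        (dend f (past ++ (π a).map Prod.fst) (dend f past c ((π a).map Prod.fst))
          ((cyc k (N + 1)).map s)) τ'
      linarith
    have h2 := Finset.sum_le_sum fun a (_ : a ∈ univ) => h1 a
    simp only [mul_add, Finset.sum_add_distrib, ← Finset.sum_mul, hμ, one_mul] at h2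
    have h3 := hV fun l => τ (f (past ++ l))
    have h4 : ∑ a, μ a * dc (fun l => τ (f (past ++ l))) [] s ((π a).map Prod.fst) ≤
        ∑ a, μ a * (dc f past c ((π a).map Prod.fst) + ∑ a, dist (c a) (s (τ a))) :=
      Finset.sum_le_sum fun a _ => mul_le_mul_of_nonneg_left
        (dc_simul f _ τ past [] (fun l => by simp) c s _) (hμ0 a)
    simp only [mul_add, Finset.sum_add_distrib, ← Finset.sum_mul, hμ, one_mul] at h4
    push_cast
    linarith

end general

/-- the Bayesian bound without additive constant (up to `ε`), ratio doubled, on finite spaces -/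
theorem bayes_reset {k : ℕ} {ρ : ℝ} (hk : 0 < k) (hρ : 0 ≤ ρ) (hB : Bayes k ρ) (X : Type)
    [MetricSpace X] [Fintype X] (hX : Nonempty (Fin (k + 1) ↪ X)) (s : Fin k → X)
    (hs : Function.Injective s) (F : Type) [Fintype F] (μ : F → ℝ) (hμ0 : ∀ a, 0 ≤ μ a)
    (hμ : ∑ a, μ a = 1) (π : F → List (X × Fin k)) (ε : ℝ) (hε : 0 < ε) :
    ∃ f : List X → Fin k, ∑ a, μ a * dc f [] s ((π a).map Prod.fst) ≤
      2 * ρ * ∑ a, μ a * pathCost s (π a) + ε := by
  classical
  by_contra hcon
  push Not at hcon
  obtain ⟨B, hBl⟩ := bayes_list hk hB X hX s hs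
  obtain ⟨D, hD⟩ : ∃ D : ℝ, ∀ x y : X, dist x y ≤ D := by
    obtain ⟨D, hD⟩ := (Set.finite_range fun q : X × X => dist q.1 q.2).bddAbove
    exact ⟨D, fun x y => hD ⟨(x, y), rfl⟩⟩
  obtain ⟨δ, hδ0, hδ⟩ : ∃ δ : ℝ, 0 < δ ∧ ∀ x y : X, dist x y < δ → x = y := by
    have : ∀ q : X × X, ∃ δ : ℝ, 0 < δ ∧ (dist q.1 q.2 < δ → q.1 = q.2) := fun q => by
      by_cases h : q.1 = q.2
      · exact ⟨1, one_pos, fun _ => h⟩
      · exact ⟨dist q.1 q.2, dist_pos.2 h, fun h' => absurd h' (lt_irrefl _)⟩
    choose g hg0 hg using this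
    have : Nonempty (X × X) := ⟨(s ⟨0, hk⟩, s ⟨0, hk⟩)⟩
    obtain ⟨q, hq⟩ := Finite.exists_min g
    exact ⟨g q, hg0 q, fun x y h => hg (x, y) (h.trans_le (hq _))⟩
  obtain ⟨N, hN⟩ : ∃ N : ℕ, k * D ≤ ((N + 1 : ℕ) : ℝ) * δ := by
    obtain ⟨N, hN⟩ := exists_nat_ge (k * D / δ)
    refine ⟨N, ?_⟩
    rw [div_le_iff₀ hδ0] at hN
    push_cast
    linarith
  have hR : ∀ (f : List X → Fin k) (past : List X) (c : Fin k → X), ∃ τ : Equiv.Perm (Fin k),
      ∑ a, dist (dend f past c ((cyc k (N + 1)).map s) a) (s (τ a)) ≤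
        dc f past c ((cyc k (N + 1)).map s) := fun f past c => by
    rcases reset_alt f δ hδ s hs (N + 1) past c with h | h
    · refine ⟨1, le_trans ?_ (hN.trans h)⟩
      calc ∑ a, dist (dend f past c ((cyc k (N + 1)).map s) a) (s ((1 : Equiv.Perm (Fin k)) a))
          ≤ ∑ _a : Fin k, D := Finset.sum_le_sum fun a _ => hD _ _
        _ = k * D := by simp
    · exact h
  set E := ∑ a, μ a * pathCost s (π a) with hE
  obtain ⟨M, hM⟩ := exists_nat_gt (B / ε)
  rw [div_lt_iff₀ hε] at hM
  obtain ⟨f, hf⟩ := hBl (Fin M → F) (fun ω => ∏ m, μ (ω m))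
    (fun ω => Finset.prod_nonneg fun m _ => hμ0 _) (sum_prod_one μ hμ M)
    fun ω => rounds s N π (List.ofFn ω)
  have h1 := alg_rounds μ hμ0 hμ s N π (2 * ρ * E + ε) (fun f => (hcon f).le) hR M f [] s 1
  have h2 := opt_rounds μ hμ0 hμ s N π M
  simp only [Equiv.Perm.coe_one, id_eq, dist_self, Finset.sum_const_zero, add_zero] at h1
  have h3 := mul_le_mul_of_nonneg_left h2 hρ
  rw [← hE] at h3
  nlinarith

end Crest.Agent.KS
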